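import Vale.Agent.P153.R2.POLY.Tr
import Vale.Agent.P153.R2.L1.Rmt

/-!
# P153, block POLY: the domain enclosed by a lattice polygon

For a lattice polygon `p` enclosing the finite set `S` of faces: the interior `DD S` of the region
is connected, its complement `RR Sᶜ` is connected, and its frontier is the union of the edges of
the polygon. Transport to the mesh `δ`: `DC δ S = toC '' interior (region δ S)`.
-/

set_option linter.all false

namespace Vale.Agent.P153.R2.POLY

open Vale.Agent.P153.R2.Final Set Filter Topology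

section Lattice

variable {n : ℕ} {p : ZMod n → ℤ × ℤ} {S : Finset Tri}

/-- The faces on both sides of an edge and the midpoint of the edge. -/
theorem preconn_two (v : ℤ × ℤ) (k : Fin 6) {T : Set Tri} (ha : ta v k ∈ T) (hb : tb v k ∈ T) :
    ∃ A : Set (ℝ × ℝ), IsPreconnected A ∧ A ⊆ DD T ∧ cen (ta v k) ∈ A ∧ cen (tb v k) ∈ A := by
  have h0 : (0 : ℝ) ≤ 1 / 2 := by norm_num
  have h1 : (1 / 2 : ℝ) ≤ 1 := by norm_num
  have ca := preconn_insert (ep_mem_ta v k h0 h1)
  have cb := preconn_insert (ep_mem_tb v k h0 h1)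
  refine ⟨_, IsPreconnected.union (ep v k (1 / 2)) (mem_insert _ _) (mem_insert _ _) ca cb, ?_,
    Or.inl (mem_insert_of_mem _ (cen_mem _)), Or.inr (mem_insert_of_mem _ (cen_mem _))⟩
  have hm : ep v k (1 / 2) ∈ DD T := by
    intro t ht
    rcases ep_unique (by norm_num) (by norm_num) ht with rfl | rfl
    · exact hb
    · exact ha
  rintro z ((rfl | hz) | (rfl | hz))
  · exact hm
  · exact ot_sub_DD ha hz
  · exact hm
  · exact ot_sub_DD hb hz

theorem same_comp {A X : Set (ℝ × ℝ)} {x a b : ℝ × ℝ} (hA : IsPreconnected A) (hAX : A ⊆ X)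
    (ha : a ∈ A) (hb : b ∈ A) (h : a ∈ connectedComponentIn X x) : b ∈ connectedComponentIn X x := by
  rw [connectedComponentIn_eq h]
  exact hA.subset_connectedComponentIn ha hAX hb

/-- **The interior of the region is connected.** -/
theorem isConnected_DD (hp : IsPolygon p) (hS : Encloses p S) : IsConnected (DD (S : Set Tri)) := by
  obtain ⟨t0, ht0⟩ := enclosed_nonempty hp hS
  have hc0 : cen t0 ∈ DD (S : Set Tri) := ot_sub_DD ht0 (cen_mem t0)
  set C := connectedComponentIn (DD (S : Set Tri)) (cen t0) with hC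
  set T : Set Tri := {t | t ∈ S ∧ cen t ∈ C} with hT
  have key := (two_sides_set hp hS (T := T) (by
    intro v k hk
    rw [side_dir hS] at hk
    have hk' : tb v k ∈ S ↔ ta v k ∈ S := by tauto
    by_cases hb : tb v k ∈ S
    · have ha := hk'.1 hb
      obtain ⟨A, hA, hAS, h1, h2⟩ := preconn_two v k (T := (S : Set Tri)) ha hb
      constructor
      · rintro ⟨_, h⟩
        exact ⟨ha, same_comp hA hAS h2 h1 h⟩
      · rintro ⟨_, h⟩
        exact ⟨hb, same_comp hA hAS h1 h2 h⟩
    · have ha : ta v k ∉ S := fun h => hb (hk'.2 h)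
      exact ⟨fun h => absurd h.1 hb, fun h => absurd h.1 ha⟩)).1
  have h0 : t0 ∈ T := ⟨ht0, mem_connectedComponentIn hc0⟩
  have hall : DD (S : Set Tri) ⊆ C := by
    intro z hz
    obtain ⟨t, ht⟩ := exists_ct z
    have htS : t ∈ S := hz t ht
    have h1 : cen t ∈ C := ((key t0 t ht0 htS).1 h0).2
    refine same_comp (preconn_insert ht) ?_ (mem_insert_of_mem _ (cen_mem t)) (mem_insert _ _) h1
    rintro w (rfl | hw)
    · exact hz
    · exact ot_sub_DD htS hw
  have he : DD (S : Set Tri) = C := Subset.antisymm hall (connectedComponentIn_subset _ _)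
  refine ⟨⟨_, hc0⟩, ?_⟩
  rw [he]
  exact isPreconnected_connectedComponentIn

theorem exists_notMem (S : Finset Tri) : ∃ t, t ∉ S := Infinite.exists_notMem_finset S

/-- **The complement of the interior of the region is connected.** -/
theorem isPreconnected_RR (hp : IsPolygon p) (hS : Encloses p S) :
    IsPreconnected (RR (S : Set Tri)ᶜ) := by
  obtain ⟨t0, ht0⟩ := exists_notMem S
  have hsub : ∀ t, t ∉ S → ct t ⊆ RR (S : Set Tri)ᶜ := fun t ht z hz => ⟨t, ht, hz⟩
  have hc0 : cen t0 ∈ RR (S : Set Tri)ᶜ := hsub t0 ht0 (ot_sub_ct _ (cen_mem t0))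
  set C := connectedComponentIn (RR (S : Set Tri)ᶜ) (cen t0) with hC
  set T : Set Tri := {t | t ∉ S ∧ cen t ∈ C} with hT
  have hpc : ∀ t, IsPreconnected (ct t) := fun t => (convex_ct t).isPreconnected
  have key := (two_sides_set hp hS (T := T) (by
    intro v k hk
    rw [side_dir hS] at hk
    have hk' : tb v k ∈ S ↔ ta v k ∈ S := by tauto
    have h0 : (0 : ℝ) ≤ 1 / 2 := by norm_num
    have h1 : (1 / 2 : ℝ) ≤ 1 := by norm_num
    by_cases hb : tb v k ∈ S
    · have ha := hk'.1 hb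
      exact ⟨fun h => absurd hb h.1, fun h => absurd ha h.1⟩
    · have ha : ta v k ∉ S := fun h => hb (hk'.2 h)
      have hA := IsPreconnected.union (ep v k (1 / 2)) (ep_mem_ta v k h0 h1) (ep_mem_tb v k h0 h1)
        (hpc _) (hpc _)
      have hAS : ct (ta v k) ∪ ct (tb v k) ⊆ RR (S : Set Tri)ᶜ :=
        union_subset (hsub _ ha) (hsub _ hb)
      have m1 : cen (ta v k) ∈ ct (ta v k) ∪ ct (tb v k) := Or.inl (ot_sub_ct _ (cen_mem _))
      have m2 : cen (tb v k) ∈ ct (ta v k) ∪ ct (tb v k) := Or.inr (ot_sub_ct _ (cen_mem _))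
      constructor
      · rintro ⟨_, h⟩
        exact ⟨ha, same_comp hA hAS m2 m1 h⟩
      · rintro ⟨_, h⟩
        exact ⟨hb, same_comp hA hAS m1 m2 h⟩)).2
  have h0 : t0 ∈ T := ⟨ht0, mem_connectedComponentIn hc0⟩
  have hall : RR (S : Set Tri)ᶜ ⊆ C := by
    rintro z ⟨t, ht, hz⟩
    have h1 : cen t ∈ C := ((key t0 t ht0 ht).1 h0).2
    exact same_comp (hpc t) (hsub t ht) (ot_sub_ct _ (cen_mem t)) hz h1
  have he : RR (S : Set Tri)ᶜ = C := Subset.antisymm hall (connectedComponentIn_subset _ _)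
  rw [he]
  exact isPreconnected_connectedComponentIn

theorem isCompact_ct (t : Tri) : IsCompact (ct t) := by
  apply Metric.isCompact_of_isClosed_isBounded (isClosed_ct t)
  have : ct t ⊆ Icc (t.1.1 : ℝ) (t.1.1 + 1) ×ˢ Icc (t.1.2 : ℝ) (t.1.2 + 1) := by
    intro z hz
    obtain ⟨h1, h2, h3, h4⟩ := ct_bound hz
    exact ⟨⟨h1, h2⟩, h3, h4⟩
  exact ((Metric.isBounded_Icc _ _).prod (Metric.isBounded_Icc _ _)).subset this

theorem isCompact_RR (S : Finset Tri) : IsCompact (RR (S : Set Tri)) := by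
  have : RR (S : Set Tri) = ⋃ t ∈ S, ct t := by
    ext z
    simp [RR]
  rw [this]
  exact S.isCompact_biUnion fun t _ => isCompact_ct t

theorem tb_nx (v : ℤ × ℤ) (k : Fin 6) : tb v (nx k) = ta v k := by
  obtain ⟨a, b⟩ := v
  fin_cases k <;> simp [ta, tb, nx]

/-- Around a lattice point with faces of both kinds there is an edge of the polygon. -/
theorem exists_edge_at (hS : Encloses p S) {v : ℤ × ℤ} {k l : Fin 6} (hk : ta v k ∈ S)
    (hl : ta v l ∉ S) : ∃ m, IsEdge p v (v + dir m) := by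
  by_contra hc
  push Not at hc
  have h1 : ∀ m, (ta v m ∈ S ↔ ta v (nx m) ∈ S) := by
    intro m
    have := hc (nx m)
    rw [side_dir hS, tb_nx] at this
    tauto
  have h2 : ∀ m, (ta v m ∈ S ↔ ta v 0 ∈ S) := by
    have a0 := h1 0
    have a1 := h1 1
    have a2 := h1 2
    have a3 := h1 3
    have a4 := h1 4
    have a5 := h1 5
    simp only [nx] at a0 a1 a2 a3 a4 a5
    intro m
    fin_cases m
    · exact Iff.rfl
    · exact a0.symm
    · exact a1.symm.trans a0.symm
    · exact a2.symm.trans (a1.symm.trans a0.symm)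
    · exact a4.trans a5
    · exact a5
  exact hl ((h2 l).2 ((h2 k).1 hk))

theorem ep_mem_segment (v : ℤ × ℤ) (k : Fin 6) {θ : ℝ} (h0 : 0 ≤ θ) (h1 : θ ≤ 1) :
    ep v k θ ∈ segment ℝ (rp v) (rp (v + dir k)) := by
  refine ⟨1 - θ, θ, by linarith, h0, by ring, ?_⟩
  rw [ep]
  apply Prod.ext <;> simp [rp] <;> ring

theorem exists_ep_of_segment {v : ℤ × ℤ} {k : Fin 6} {z : ℝ × ℝ}
    (h : z ∈ segment ℝ (rp v) (rp (v + dir k))) : ∃ θ, 0 ≤ θ ∧ θ ≤ 1 ∧ z = ep v k θ := by
  obtain ⟨a, b, ha, hb, hab, rfl⟩ := h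
  refine ⟨b, hb, by linarith, ?_⟩
  have : a = 1 - b := by linarith
  subst this
  rw [ep]
  apply Prod.ext <;> simp [rp] <;> ring

/-- The union of the edges of the polygon. -/
def EE (p : ZMod n → ℤ × ℤ) : Set (ℝ × ℝ) := ⋃ i : ZMod n, segment ℝ (rp (p i)) (rp (p (i + 1)))

theorem seg_sub_EE {v w : ℤ × ℤ} (h : IsEdge p v w) : segment ℝ (rp v) (rp w) ⊆ EE p := by
  obtain ⟨i, ⟨rfl, rfl⟩ | ⟨rfl, rfl⟩⟩ := h
  · exact subset_iUnion (fun i : ZMod n => segment ℝ (rp (p i)) (rp (p (i + 1)))) i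
  · rw [segment_symm]
    exact subset_iUnion (fun i : ZMod n => segment ℝ (rp (p i)) (rp (p (i + 1)))) i

theorem rp_mem_EE {v w : ℤ × ℤ} (h : IsEdge p v w) : rp v ∈ EE p :=
  seg_sub_EE h (left_mem_segment ℝ _ _)

/-- **The frontier of the region is the polygon.** -/
theorem frontier_eq (hp : IsPolygon p) (hS : Encloses p S) : frontier (DD (S : Set Tri)) = EE p := by
  rw [frontier_DD]
  apply Subset.antisymm
  · rintro z ⟨⟨s, hs, hzs⟩, t, ht, hzt⟩
    have hs' : s ∈ S := hs
    have ht' : t ∉ S := ht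
    have hst : t ≠ s := by
      rintro rfl
      exact ht' hs'
    have hzo : z ∉ ot s := fun h => hst (eq_of_mem h hzt)
    have at_rp : ∀ v : ℤ × ℤ, z = rp v → z ∈ EE p := by
      rintro v rfl
      obtain ⟨k, hk⟩ := rp_unique hzs
      obtain ⟨l, hl⟩ := rp_unique hzt
      rw [hk] at hs'
      rw [hl] at ht'
      obtain ⟨m, hm⟩ := exists_edge_at hS hs' ht'
      exact rp_mem_EE hm
    obtain ⟨v, k, θ, h0, h1, rfl⟩ := exists_ep hzs hzo
    rcases h0.eq_or_lt with h0' | h0'
    · exact at_rp v (by rw [← h0', ep_zero])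
    rcases h1.eq_or_lt with h1' | h1'
    · exact at_rp (v + dir k) (by rw [h1', ep_one])
    have e1 := ep_unique h0' h1' hzs
    have e2 := ep_unique h0' h1' hzt
    have he : IsEdge p v (v + dir k) := by
      rw [side_dir hS]
      rcases e1 with rfl | rfl <;> rcases e2 with rfl | rfl <;> tauto
    exact seg_sub_EE he (ep_mem_segment v k h0 h1)
  · intro z hz
    obtain ⟨i, hi⟩ := mem_iUnion.1 hz
    obtain ⟨k, hk⟩ := exists_dir hp i
    rw [hk] at hi
    obtain ⟨θ, h0, h1, rfl⟩ := exists_ep_of_segment hi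
    have he : IsEdge p (p i) (p i + dir k) := ⟨i, Or.inl ⟨rfl, hk⟩⟩
    rw [side_dir hS] at he
    have ma := ep_mem_ta (p i) k h0 h1
    have mb := ep_mem_tb (p i) k h0 h1
    by_cases ha : ta (p i) k ∈ S
    · have hb : tb (p i) k ∉ S := fun hb => he ⟨fun _ => ha, fun _ => hb⟩
      exact ⟨⟨_, ha, ma⟩, _, hb, mb⟩
    · have hb : tb (p i) k ∈ S := by
        by_contra hb
        exact he ⟨fun h => absurd h hb, fun h => absurd h ha⟩
      exact ⟨⟨_, hb, mb⟩, _, ha, ma⟩

end Lattice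

/-! ### The mesh `δ` -/

section Mesh

variable {n : ℕ} {p : ZMod n → ℤ × ℤ} {S : Finset Tri} {δ : ℝ}

/-- The homeomorphism of the plane. -/
noncomputable def toCH : ℝ × ℝ ≃ₜ ℂ := Complex.equivRealProdCLM.symm.toHomeomorph

theorem toCH_eq : (toCH : ℝ × ℝ → ℂ) = toC := by
  funext z
  apply Complex.ext <;> simp [toCH, toC]

/-- The open domain of the mesh `δ`. -/
def DC (δ : ℝ) (S : Finset Tri) : Set ℂ := toC '' interior (region δ S)

theorem DC_eq_interior (δ : ℝ) (S : Finset Tri) : DC δ S = interior (toC '' region δ S) := by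
  rw [DC, ← toCH_eq, toCH.image_interior]

theorem DC_eq (hδ : 0 < δ) (S : Finset Tri) : DC δ S = NN hδ ⁻¹' DD (S : Set Tri) := by
  rw [DC_eq_interior, region_eq hδ, ← (NN hδ).preimage_interior, interior_RR]

theorem isOpen_DC (hδ : 0 < δ) (S : Finset Tri) : IsOpen (DC δ S) := by
  rw [DC_eq_interior]
  exact isOpen_interior

theorem isConnected_DC (hδ : 0 < δ) (hp : IsPolygon p) (hS : Encloses p S) :
    IsConnected (DC δ S) := by
  rw [DC_eq hδ, (NN hδ).isConnected_preimage]
  exact isConnected_DD hp hS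

theorem isCompact_region (hδ : 0 < δ) (S : Finset Tri) : IsCompact (toC '' region δ S) := by
  rw [region_eq hδ, (NN hδ).isCompact_preimage]
  exact isCompact_RR S

theorem isBounded_DC (hδ : 0 < δ) (S : Finset Tri) : Bornology.IsBounded (DC δ S) := by
  rw [DC_eq_interior]
  exact (isCompact_region hδ S).isBounded.subset interior_subset

theorem compl_DC (hδ : 0 < δ) (S : Finset Tri) : (DC δ S)ᶜ = NN hδ ⁻¹' RR (S : Set Tri)ᶜ := by
  rw [DC_eq hδ, DD_eq, preimage_compl, compl_compl]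

theorem isPreconnected_compl_DC (hδ : 0 < δ) (hp : IsPolygon p) (hS : Encloses p S) :
    IsPreconnected (DC δ S)ᶜ := by
  rw [compl_DC hδ, (NN hδ).isPreconnected_preimage]
  exact isPreconnected_RR hp hS

theorem not_isBounded_compl_DC (hδ : 0 < δ) (S : Finset Tri) :
    ¬ Bornology.IsBounded (DC δ S)ᶜ := by
  intro h
  have h2 := (isBounded_DC hδ S).union h
  rw [union_compl_self] at h2
  exact NormedSpace.unbounded_univ ℝ ℂ h2

theorem noBdd_DC (hδ : 0 < δ) (hp : IsPolygon p) (hS : Encloses p S) :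
    P153.TOP.NoBdd (DC δ S) := fun z hz =>
  ⟨(DC δ S)ᶜ, isPreconnected_compl_DC hδ hp hS, hz, Subset.rfl, not_isBounded_compl_DC hδ S⟩

theorem rdom_DC (hδ : 0 < δ) (hp : IsPolygon p) (hS : Encloses p S) :
    P153.TOP.RMT.RDom (DC δ S) :=
  ⟨isConnected_DC hδ hp hS, P153.TOP.hasLogOn_of_noBdd (isOpen_DC hδ S)
    (isConnected_DC hδ hp hS).isPreconnected (noBdd_DC hδ hp hS)⟩

theorem ne_univ_DC (hδ : 0 < δ) (S : Finset Tri) : DC δ S ≠ univ := by
  intro h
  have := isBounded_DC hδ S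
  rw [h] at this
  exact NormedSpace.unbounded_univ ℝ ℂ this

theorem closure_DC (hδ : 0 < δ) (S : Finset Tri) : closure (DC δ S) = toC '' region δ S := by
  rw [DC_eq hδ, ← (NN hδ).preimage_closure, closure_DD, region_eq hδ]

theorem preimage_segment (hδ : 0 < δ) (v w : ℤ × ℤ) :
    NN hδ ⁻¹' segment ℝ (rp v) (rp w) = segment ℝ (toC (δ • pt v)) (toC (δ • pt w)) := by
  have h := NN_segment hδ (INTF.PP δ v) (INTF.PP δ w)
  rw [NN_PP, NN_PP] at h
  rw [← h, preimage_image_eq _ (NN hδ).injective]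
  rfl

theorem frontier_DC (hδ : 0 < δ) (hp : IsPolygon p) (hS : Encloses p S) :
    frontier (DC δ S) = ⋃ i : ZMod n, segment ℝ (toC (δ • pt (p i))) (toC (δ • pt (p (i + 1)))) := by
  rw [DC_eq hδ, ← (NN hδ).preimage_frontier, frontier_eq hp hS, EE, preimage_iUnion]
  exact iUnion_congr fun i => preimage_segment hδ _ _

end Mesh

end Vale.Agent.P153.R2.POLY
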