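import Vale.Agent.P153.R2.POLY.State
import Vale.Agent.P153.R2.POLY.Dom
import Vale.Agent.P153.R2.DRV.Stmt
import Vale.Agent.P153.R2.R1.PL

/-!
# P153, block POLY: the canonical curve of the interface; proof of `DRV.S_can` and `UNIQ.I_intf`
-/

set_option linter.all false

namespace Vale.Agent.P153.R2.POLY

open Vale.Agent.P153.R2.Final Set Filter Topology
open Vale.Agent.P153.R2.INTF (St run fa fb ah len Good NZ Alive)
open Vale.Agent.P153.R2.DRV (Pos st sg sh ru nu pl)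

section Start

variable {n : ℕ} {p : ZMod n → ℤ × ℤ} {S : Finset Tri} {h : ℤ × ℤ → ℤ} {K : ℕ}

theorem p_mem_verts (hp : IsPolygon p) (hS : Encloses p S) (i : ZMod n) : p i ∈ Final.verts S := by
  obtain ⟨k, hk⟩ := exists_dir hp i
  have he : IsEdge p (p i) (p i + dir k) := ⟨i, Or.inl ⟨rfl, hk⟩⟩
  rw [side_dir hS] at he
  by_cases ha : ta (p i) k ∈ S
  · exact mem_verts ha (cor_ta _ _).1
  · have hb : tb (p i) k ∈ S := by tauto
    exact mem_verts hb (cor_tb _ _).1

/-- The two faces of the first edge. -/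
theorem start_faces (hp : IsPolygon p) (hS : Encloses p S) :
    Vale.Agent.P153.Adj (p 0) (p (-1)) ∧ ¬ (fa (p 0, p (-1)) ∈ S ↔ fb (p 0, p (-1)) ∈ S) := by
  obtain ⟨k, hk⟩ := exists_dir hp (-1)
  rw [neg_add_cancel] at hk
  have he : IsEdge p (p (-1)) (p (-1) + dir k) :=
    ⟨-1, Or.inl ⟨rfl, by rw [neg_add_cancel]; exact hk⟩⟩
  rw [side_dir hS] at he
  rw [hk]
  refine ⟨adj_st _ _, ?_⟩
  rw [fa_dir, fb_dir]
  exact he

theorem st_adj (hp : IsPolygon p) (hS : Encloses p S) :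
    Vale.Agent.P153.Adj (st p S).1 (st p S).2 := by
  have h1 := (start_faces hp hS).1
  unfold st
  split
  · exact h1
  · exact Topo.adj_symm h1

theorem fb_st (hp : IsPolygon p) (hS : Encloses p S) : fb (st p S) ∉ S := by
  have h1 := (start_faces hp hS).2
  unfold st
  split
  · rename_i hpos
    exact fun h => h1 ⟨fun _ => h, fun _ => hpos⟩
  · rename_i hpos
    exact hpos

theorem fa_st (hp : IsPolygon p) (hS : Encloses p S) : fa (st p S) ∈ S := by
  have h1 := (start_faces hp hS).2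
  unfold st
  split
  · rename_i hpos
    exact hpos
  · rename_i hpos
    have hn : fa (p 0, p (-1)) ∉ S := hpos
    by_contra hc
    exact h1 ⟨fun h => absurd h hn, fun h => absurd h hc⟩

theorem val_neg_one (hn : 1 < n) : (-1 : ZMod n).val = n - 1 := by
  obtain ⟨m, rfl⟩ : ∃ m, n = m + 1 := ⟨n - 1, by omega⟩
  rw [ZMod.val_neg_one]
  omega

theorem sg_cases (p : ZMod n → ℤ × ℤ) (S : Finset Tri) : sg p S = 1 ∨ sg p S = -1 := by
  unfold sg
  split
  · exact Or.inl rfl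
  · exact Or.inr rfl

theorem sh_verts {v : ℤ × ℤ} (hv : v ∈ Final.verts S) : sh p S h v = sg p S * h v := by
  unfold sh
  rw [if_pos hv]

theorem hok_sh (hh : h ∈ Heights p K S) : HOK (sh p S h) S := by
  refine ⟨fun v hv => ?_, fun v hv w hw ha => ?_⟩
  · rw [sh_verts hv]
    rcases sg_cases p S with e | e <;> rw [e]
    · rw [one_mul]; exact hh.1 v hv
    · rw [neg_one_mul]; exact (hh.1 v hv).neg
  · rw [sh_verts hv, sh_verts hw, ← mul_sub, abs_mul]
    have := hh.2.2.1 v hv w hw ha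
    rcases sg_cases p S with e | e <;> rw [e] <;> simpa using this

theorem nz_sh (hh : h ∈ Heights p K S) : NZ (sh p S h) S := by
  intro v hv h0
  have := (hok_sh hh).odd v hv
  rw [h0] at this
  exact absurd this (by decide)

theorem good_st (hp : IsPolygon p) (hS : Encloses p S) (hK : 0 < K) (hKn : K < n)
    (hh : h ∈ Heights p K S) : Good (sh p S h) (st p S) := by
  have : NeZero n := ⟨by omega⟩
  refine ⟨st_adj hp hS, ?_⟩
  have h0 : h (p 0) = 1 := by rw [hh.2.1, if_pos (by simpa using hK)]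
  have h1 : h (p (-1)) = -1 := by
    rw [hh.2.1, if_neg (by rw [val_neg_one (by omega)]; omega)]
  by_cases hpos : Pos p S
  · have e : st p S = (p 0, p (-1)) := by unfold st; rw [if_pos hpos]
    have e2 : sg p S = 1 := by unfold sg; rw [if_pos hpos]
    rw [e]
    simp only
    rw [sh_verts (p_mem_verts hp hS 0), sh_verts (p_mem_verts hp hS (-1)), e2, h0, h1]
    norm_num
  · have e : st p S = (p (-1), p 0) := by unfold st; rw [if_neg hpos]
    have e2 : sg p S = -1 := by unfold sg; rw [if_neg hpos]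
    rw [e]
    simp only
    rw [sh_verts (p_mem_verts hp hS 0), sh_verts (p_mem_verts hp hS (-1)), e2, h0, h1]
    norm_num

end Start

/-- Values at the states next to the domain. -/
theorem val_one {h : ℤ × ℤ → ℤ} {S : Finset Tri} (hh : HOK h S) {s : St} (hs : Good h s)
    (hf : fa s ∈ S ∨ fb s ∈ S) : h s.1 = 1 ∧ h s.2 = -1 := by
  obtain ⟨ha, h1, h2⟩ := hs
  obtain ⟨v, k, rfl⟩ := st_dir ha
  rw [fa_dir, fb_dir] at hf
  have hv : v ∈ Final.verts S ∧ v + dir k ∈ Final.verts S := by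
    rcases hf with hf | hf
    · exact ⟨mem_verts hf (cor_tb v k).1, mem_verts hf (cor_tb v k).2.1⟩
    · exact ⟨mem_verts hf (cor_ta v k).1, mem_verts hf (cor_ta v k).2.1⟩
  obtain ⟨a, ea⟩ := hh.odd v hv.1
  obtain ⟨b, eb⟩ := hh.odd _ hv.2
  have hst := hh.step v hv.1 _ hv.2 (adj_dir v k)
  rw [abs_le] at hst
  simp only at h1 h2 ⊢
  omega

/-! ### The path of the run in lattice coordinates -/

section Run

variable {h : ℤ × ℤ → ℤ} {S : Finset Tri} {s : St}

/-- The hypotheses on the start. -/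
structure Init (h : ℤ × ℤ → ℤ) (S : Finset Tri) (s : St) : Prop where
  hok : HOK h S
  nz : NZ h S
  good : Good h s
  hfa : fa s ∈ S
  hfb : fb s ∉ S

variable (I : Init h S s)

include I

theorem Init.alive : Alive h S s (len h S s) := (INTF.len_spec I.nz I.good I.hfb).1

theorem Init.exit : fa (run h S s (len h S s)) ∉ S := (INTF.len_spec I.nz I.good I.hfb).2

theorem Init.pos : 0 < len h S s := by
  rcases Nat.eq_zero_or_pos (len h S s) with h0 | h0
  · have := I.exit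
    rw [h0] at this
    exact absurd I.hfa this
  · exact h0

theorem Init.gd (j : ℕ) : Good h (run h S s j) := INTF.run_good I.nz I.good j

theorem Init.adj (j : ℕ) : Vale.Agent.P153.Adj (run h S s j).1 (run h S s j).2 := (I.gd j).1

theorem Init.succ {j : ℕ} (hj : j < len h S s) :
    run h S s (j + 1) = INTF.nx h (run h S s j) := INTF.run_succ (I.alive j hj)

theorem Init.back {j : ℕ} (h0 : 0 < j) (hj : j ≤ len h S s) : fb (run h S s j) ∈ S := by
  obtain ⟨j, rfl⟩ : ∃ m, j = m + 1 := ⟨j - 1, by omega⟩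
  rw [INTF.fb_run I.nz I.good (I.alive.mono hj)]
  exact I.alive j (by omega)

theorem Init.val {j : ℕ} (hj : j ≤ len h S s) : h (run h S s j).1 = 1 ∧ h (run h S s j).2 = -1 := by
  apply val_one I.hok (I.gd j)
  rcases Nat.eq_zero_or_pos j with h0 | h0
  · subst h0
    exact Or.inl I.hfa
  · exact Or.inr (I.back h0 hj)

/-- The point of the path. -/
noncomputable def QQ' (h : ℤ × ℤ → ℤ) (S : Finset Tri) (s : St) (t : ℝ) : ℝ × ℝ :=
  (1 - (t - ⌊t⌋₊)) • ms (run h S s ⌊t⌋₊) + (t - ⌊t⌋₊) • ms (run h S s (⌊t⌋₊ + 1))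

theorem Init.form {t : ℝ} (h0 : 0 ≤ t) (h1 : t ≤ len h S s) :
    (∃ j ≤ len h S s, t = j ∧ QQ' h S s t = ms (run h S s j)) ∨
      ∃ j < len h S s, ∃ θ : ℝ, 0 < θ ∧ θ < 1 ∧ t = j + θ ∧ QQ' h S s t = sg' h (run h S s j) θ := by
  have f1 := Nat.floor_le h0
  have f2 := Nat.lt_floor_add_one t
  rcases f1.eq_or_lt with h2 | h2
  · left
    refine ⟨⌊t⌋₊, ?_, h2.symm, ?_⟩
    · rw [← h2] at h1
      exact_mod_cast h1
    · rw [QQ', h2, sub_self, sub_zero, one_smul, zero_smul, add_zero]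
  · right
    have hj : ⌊t⌋₊ < len h S s := by
      have : (⌊t⌋₊ : ℝ) < len h S s := h2.trans_le h1
      exact_mod_cast this
    refine ⟨⌊t⌋₊, hj, t - ⌊t⌋₊, by linarith, by linarith, by ring, ?_⟩
    rw [QQ', I.succ hj]
    rfl

theorem Init.injOn : InjOn (QQ' h S s) (Icc 0 (len h S s : ℝ)) := by
  intro t ht u hu he
  rcases I.form ht.1 ht.2 with ⟨i, hi, ti, qi⟩ | ⟨i, hi, θ, t0, t1, ti, qi⟩ <;>
    rcases I.form hu.1 hu.2 with ⟨j, hj, uj, qj⟩ | ⟨j, hj, θ', u0, u1, uj, qj⟩ <;>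
    rw [qi, qj] at he
  · have : i = j := by
      apply INTF.run_inj I.nz I.good I.hfb I.alive hi hj
      rcases ms_inj (I.adj i) (I.adj j) he with e | e
      · exact e.symm
      · have h1 := (I.gd i).2.2
        have h2 := (I.gd j).2.1
        rw [e] at h2
        simp only at h2
        omega
    rw [ti, uj, this]
  · exact absurd (he ▸ sg_mem (I.adj j) u0 u1) (ms_notMem_ot (I.adj i) _)
  · exact absurd (he ▸ sg_mem (I.adj i) t0 t1) (ms_notMem_ot (I.adj j) _)
  · have h1 := sg_mem (h := h) (I.adj i) t0 t1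
    have h2 := sg_mem (h := h) (I.adj j) u0 u1
    rw [← he] at h2
    have h3 : fa (run h S s i) = fa (run h S s j) := eq_of_mem h2 (ot_sub_ct _ h1)
    have h4 : i = j := INTF.fa_run_inj I.nz I.good I.hfb I.alive hi.le hj.le h3
    subst h4
    rw [ti, uj, sg_inj (I.adj i) he]

theorem Init.inner {t : ℝ} (h0 : 0 < t) (h1 : t < len h S s) : QQ' h S s t ∈ DD (S : Set Tri) := by
  rcases I.form h0.le h1.le with ⟨i, hi, ti, qi⟩ | ⟨i, hi, θ, t0, t1, ti, qi⟩
  · rw [qi]
    have hi0 : 0 < i := by rw [ti] at h0; exact_mod_cast h0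
    have hi1 : i < len h S s := by rw [ti] at h1; exact_mod_cast h1
    intro t ht
    rcases ms_faces (I.adj i) ht with rfl | rfl
    · exact I.alive i hi1
    · exact I.back hi0 hi
  · rw [qi]
    exact ot_sub_DD (I.alive i hi) (sg_mem (I.adj i) t0 t1)

theorem Init.region {t : ℝ} (h0 : 0 ≤ t) (h1 : t ≤ len h S s) :
    QQ' h S s t ∈ RR (S : Set Tri) := by
  rcases h0.eq_or_lt with h2 | h2
  · rcases I.form h0 h1 with ⟨i, hi, ti, qi⟩ | ⟨i, hi, θ, t0, t1, ti, qi⟩
    · rw [qi]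
      have hi0 : i = 0 := by rw [← h2] at ti; exact_mod_cast ti.symm
      subst hi0
      exact ⟨_, I.hfa, ms_mem_fa I.good.1⟩
    · rw [qi]
      exact ⟨_, I.alive i hi, ot_sub_ct _ (sg_mem (I.adj i) t0 t1)⟩
  · rcases I.form h0 h1 with ⟨i, hi, ti, qi⟩ | ⟨i, hi, θ, t0, t1, ti, qi⟩
    · rw [qi]
      have hi0 : 0 < i := by rw [ti] at h2; exact_mod_cast h2
      exact ⟨_, I.back hi0 hi, ms_mem_fb (I.adj i)⟩
    · rw [qi]
      exact ⟨_, I.alive i hi, ot_sub_ct _ (sg_mem (I.adj i) t0 t1)⟩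

theorem Init.zero {t : ℝ} (h0 : 0 ≤ t) (h1 : t ≤ len h S s) : ff h (QQ' h S s t) = 0 := by
  rcases I.form h0 h1 with ⟨i, hi, ti, qi⟩ | ⟨i, hi, θ, t0, t1, ti, qi⟩
  · rw [qi]
    obtain ⟨v1, v2⟩ := I.val hi
    have ha := I.adj i
    generalize run h S s i = r at v1 v2 ha
    obtain ⟨v, k, rfl⟩ := st_dir ha
    rw [ms_dir, ff_tb h (ep_mem_tb v k (by norm_num) (by norm_num)), fy_ep]
    have e : fx v k (ep v k (1 / 2)) = 1 / 2 := by rw [← ms_dir, fx_here]
    simp only at v1 v2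
    rw [e, v1, v2]
    push_cast
    ring
  · rw [qi]
    have v1 := I.val hi.le
    have v2 := I.val (j := i + 1) hi
    rw [I.succ hi] at v2
    exact ff_sg (I.adj i) v1.1 v1.2 v2.1 v2.2 t0.le t1

end Run

section Can

variable {n : ℕ} {p : ZMod n → ℤ × ℤ} {S : Finset Tri} {h : ℤ × ℤ → ℤ} {K : ℕ} {δ : ℝ}

theorem init (hp : IsPolygon p) (hS : Encloses p S) (hK : 0 < K) (hKn : K < n)
    (hh : h ∈ Heights p K S) : Init (sh p S h) S (st p S) :=
  ⟨hok_sh hh, nz_sh hh, good_st hp hS hK hKn hh, fa_st hp hS, fb_st hp hS⟩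

theorem NN_pl (hδ : 0 < δ) (h' : ℤ × ℤ → ℤ) (t : ℝ) :
    NN hδ (pl δ (ru p S h') t) = QQ' h' S (st p S) t := by
  rw [pl, NN_comb, NN_mid, NN_mid]
  rfl

/-- The two interpolations agree up to the sign. -/
theorem ff_sh {z : ℝ × ℝ} (hz : z ∈ RR (S : Set Tri)) : ff (sh p S h) z = sg p S * ff h z := by
  obtain ⟨t, ht, hzt⟩ := hz
  obtain ⟨v, k, rfl⟩ := exists_ta t
  obtain ⟨c1, c2, c3⟩ := cor_ta v k
  rw [ff_ta _ hzt, ff_ta _ hzt, sh_verts (mem_verts ht c1), sh_verts (mem_verts ht c2),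
    sh_verts (mem_verts ht c3)]
  push_cast
  ring

theorem continuous_pl' (δ : ℝ) (ρ : ℕ → St) : ContinuousOn (pl δ ρ) (Ici 0) := by
  have h1 := (R1.continuous_pl fun i : ℤ => mid δ (ρ i.toNat).1 (ρ i.toNat).2).continuousOn
    (s := Ici 0)
  refine h1.congr fun t ht => ?_
  have ht0 : 0 ≤ t := ht
  have e1 : (⌊t⌋₊ : ℤ) = ⌊t⌋ := Int.natCast_floor_eq_floor ht0
  have e2 : (⌊t⌋₊ : ℝ) = (⌊t⌋ : ℝ) := natCast_floor_eq_intCast_floor ht0
  have e3 : (⌊t⌋ + 1).toNat = ⌊t⌋₊ + 1 := by rw [← e1]; exact Int.toNat_natCast _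
  rw [pl, R1.pl, ← Int.self_sub_floor, ← e2, e3, Int.floor_toNat, Complex.real_smul,
    Complex.real_smul]

theorem ms_st (p : ZMod n → ℤ × ℤ) (S : Finset Tri) :
    ms (st p S) = (1 / 2 : ℝ) • rp (p (-1)) + (1 / 2 : ℝ) • rp (p 0) := by
  unfold st
  split
  · rw [ms, add_comm]
  · rw [ms]

theorem QQ_zero {h' : ℤ × ℤ → ℤ} {s : St} : QQ' h' S s 0 = ms s := by
  rw [QQ', Nat.floor_zero, Nat.cast_zero, sub_self, sub_zero, one_smul, zero_smul, add_zero]
  rfl

theorem QQ_nat {h' : ℤ × ℤ → ℤ} {s : St} (j : ℕ) : QQ' h' S s j = ms (run h' S s j) := by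
  rw [QQ', Nat.floor_natCast, sub_self, sub_zero, one_smul, zero_smul, add_zero]

theorem pl_start (hδ : 0 < δ) (h' : ℤ × ℤ → ℤ) :
    pl δ (ru p S h') 0 = mid δ (p (-1)) (p 0) := by
  apply (NN hδ).injective
  rw [NN_pl, NN_mid, QQ_zero, ms_st]

/-- The exit is at the second edge with a change of sign. -/
theorem exit_ms (hp : IsPolygon p) (hS : Encloses p S) (hK : 0 < K) (hKn : K < n)
    (hh : h ∈ Heights p K S) :
    ms (run (sh p S h) S (st p S) (nu p S (sh p S h))) =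
      (1 / 2 : ℝ) • rp (p ((K : ZMod n) - 1)) + (1 / 2 : ℝ) • rp (p K) := by
  have I := init hp hS hK hKn hh
  have hN : nu p S (sh p S h) = len (sh p S h) S (st p S) := rfl
  rw [hN]
  have hex := I.exit
  have hbk := I.back I.pos le_rfl
  have hval := I.val le_rfl
  have hadj := I.adj (len (sh p S h) S (st p S))
  have hgd := I.gd (len (sh p S h) S (st p S))
  have hne : run (sh p S h) S (st p S) (len (sh p S h) S (st p S)) ≠ st p S := by
    intro e
    have := INTF.run_inj I.nz I.good I.hfb I.alive (i := len (sh p S h) S (st p S)) (j := 0)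
      le_rfl (Nat.zero_le _) e
    have := I.pos
    omega
  generalize run (sh p S h) S (st p S) (len (sh p S h) S (st p S)) = s' at *
  obtain ⟨v, k, rfl⟩ := st_dir hadj
  rw [fa_dir] at hex
  rw [fb_dir] at hbk
  have hv := mem_verts hbk (cor_ta v k).1
  have hw := mem_verts hbk (cor_ta v k).2.1
  have he : IsEdge p v (v + dir k) := by
    rw [side_dir hS]
    tauto
  have hc : Chg h v k := by
    obtain ⟨v1, v2⟩ := hval
    simp only at v1 v2
    rw [sh_verts hw] at v1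
    rw [sh_verts hv] at v2
    rcases sg_cases p S with e | e <;> rw [e] at v1 v2
    · exact Or.inr ⟨by omega, by omega⟩
    · exact Or.inl ⟨by omega, by omega⟩
  rw [ms_dir]
  rcases edge_pm (by have := hp.1; omega) hK hKn hh.2.1 hc he with e | e
  · exfalso
    rw [← ms_st p S, ← ms_dir] at e
    rcases ms_inj hadj (st_adj hp hS) e with e2 | e2
    · exact hne e2.symm
    · have h1 := I.good.2.1
      have h2 := hgd.2.2
      rw [e2] at h1
      simp only at h1 h2
      omega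
  · exact e

theorem pl_end (hδ : 0 < δ) (hp : IsPolygon p) (hS : Encloses p S) (hK : 0 < K) (hKn : K < n)
    (hh : h ∈ Heights p K S) :
    pl δ (ru p S (sh p S h)) (nu p S (sh p S h)) = UNIQ.bptD p K δ := by
  apply (NN hδ).injective
  rw [NN_pl, UNIQ.bptD, NN_mid, QQ_nat, exit_ms hp hS hK hKn hh]

theorem pl_injOn (hδ : 0 < δ) (hp : IsPolygon p) (hS : Encloses p S) (hK : 0 < K) (hKn : K < n)
    (hh : h ∈ Heights p K S) :
    InjOn (pl δ (ru p S (sh p S h))) (Icc 0 (nu p S (sh p S h) : ℝ)) := by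
  intro t ht u hu he
  have := congrArg (NN hδ) he
  rw [NN_pl, NN_pl] at this
  exact (init hp hS hK hKn hh).injOn ht hu this

theorem pl_inner (hδ : 0 < δ) (hp : IsPolygon p) (hS : Encloses p S) (hK : 0 < K) (hKn : K < n)
    (hh : h ∈ Heights p K S) {t : ℝ} (ht : t ∈ Ioo 0 (nu p S (sh p S h) : ℝ)) :
    pl δ (ru p S (sh p S h)) t ∈ toC '' interior (region δ S) := by
  have h1 : pl δ (ru p S (sh p S h)) t ∈ DC δ S := by
    rw [DC_eq hδ]
    change NN hδ _ ∈ DD (S : Set Tri)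
    rw [NN_pl]
    exact (init hp hS hK hKn hh).inner ht.1 ht.2
  exact h1

theorem pl_region (hδ : 0 < δ) (hp : IsPolygon p) (hS : Encloses p S) (hK : 0 < K) (hKn : K < n)
    (hh : h ∈ Heights p K S) {t : ℝ} (ht : t ∈ Icc 0 (nu p S (sh p S h) : ℝ)) :
    pl δ (ru p S (sh p S h)) t ∈ toC '' region δ S ∧
      interp h ((pl δ (ru p S (sh p S h)) t).re / δ, (pl δ (ru p S (sh p S h)) t).im / δ) = 0 := by
  have I := init hp hS hK hKn hh
  have h1 := I.region ht.1 ht.2
  have h2 := I.zero ht.1 ht.2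
  rw [mem_Reg_iff_NN hδ, interp_eq hδ, NN_pl]
  refine ⟨h1, ?_⟩
  rw [ff_sh h1] at h2
  rcases mul_eq_zero.1 h2 with h3 | h3
  · exfalso
    rcases sg_cases p S with e | e <;> rw [e] at h3 <;> norm_num at h3
  · exact h3

/-- The canonical interface. -/
noncomputable def can (δ : ℝ) (p : ZMod n → ℤ × ℤ) (S : Finset Tri) (h : ℤ × ℤ → ℤ) :
    C(unitInterval, ℂ) :=
  ⟨fun t => pl δ (ru p S (sh p S h)) (nu p S (sh p S h) * (t : ℝ)),
    (continuous_pl' δ _).comp_continuous (by fun_prop) fun t =>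
      mul_nonneg (Nat.cast_nonneg _) t.2.1⟩

theorem can_isInterface (hδ : 0 < δ) (hp : IsPolygon p) (hS : Encloses p S) (hK : 0 < K)
    (hKn : K < n) (hh : h ∈ Heights p K S) : IsInterface p K S δ h (can δ p S h) := by
  have I := init hp hS hK hKn hh
  have hpos : (0 : ℝ) < nu p S (sh p S h) := by exact_mod_cast I.pos
  have hm : ∀ t : unitInterval, (nu p S (sh p S h) : ℝ) * t ∈ Icc 0 (nu p S (sh p S h) : ℝ) :=
    fun t => ⟨mul_nonneg hpos.le t.2.1, by nlinarith [t.2.2]⟩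
  refine ⟨?_, ?_, ?_, ?_⟩
  · intro t u he
    have h1 := pl_injOn hδ hp hS hK hKn hh (hm t) (hm u) he
    exact Subtype.ext (mul_left_cancel₀ hpos.ne' h1)
  · change pl δ _ (_ * ((0 : unitInterval) : ℝ)) = _
    rw [Set.Icc.coe_zero, mul_zero]
    exact pl_start hδ _
  · change pl δ _ (_ * ((1 : unitInterval) : ℝ)) = _
    rw [Set.Icc.coe_one, mul_one]
    exact pl_end hδ hp hS hK hKn hh
  · intro t
    obtain ⟨h1, h2⟩ := pl_region hδ hp hS hK hKn hh (hm t)
    exact ⟨INTF.mem_Reg.1 h1, h2⟩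

end Can

/-- **Existence of the interface.** -/
theorem i_intf : UNIQ.I_intf := fun _ _ p S δ hδ hK hKn hp hS h hh =>
  ⟨can δ p S h, can_isInterface hδ hp hS hK hKn hh⟩

/-- **The canonical curve.** -/
theorem s_can : DRV.S_can := by
  intro n K p S δ hδ hK hKn hp hS h hh
  have I := init hp hS hK hKn hh
  have hpos : (0 : ℝ) < nu p S (sh p S h) := by exact_mod_cast I.pos
  refine ⟨I.pos, pl_start hδ _, pl_end hδ hp hS hK hKn hh, pl_injOn hδ hp hS hK hKn hh,
    fun t ht => pl_inner hδ hp hS hK hKn hh ht, fun x hx => ?_⟩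
  obtain ⟨τ, hτ⟩ := i_intu n K p S δ hδ hK hKn hp hS h hh _ _
    (can_isInterface hδ hp hS hK hKn hh) hx
  refine ⟨fun t => nu p S (sh p S h) * (τ t : ℝ), ?_, ?_, ?_, ?_, ?_⟩
  · exact continuous_const.mul (continuous_subtype_val.comp τ.continuous)
  · intro t u htu
    have : (τ t : ℝ) < τ u := τ.strictMono htu
    exact mul_lt_mul_of_pos_left this hpos
  · have : τ 0 = 0 := τ.map_bot
    simp only [this, Set.Icc.coe_zero, mul_zero]
  · have : τ 1 = 1 := τ.map_top
    simp only [this, Set.Icc.coe_one, mul_one]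
  · intro t
    rw [hτ]
    rfl

end Vale.Agent.P153.R2.POLY
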