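import Vale.Agent.P153.R2.POLY.Can
import Vale.Agent.P153.R2.DRV.Bridge
import Vale.Agent.P153.R2.STEP.Drv

/-!
# P153, block POLY: the canonical curve for the signed heights; `STEP.CanCs` and `DRV.S_step`
-/

set_option linter.all false

namespace Vale.Agent.P153.R2.POLY

open Vale.Agent.P153.R2.Final Set Filter Topology
open Vale.Agent.P153.R2.DRV (Pos st sg sh ru nu pl Cs)

theorem canCs : STEP.CanCs := by
  intro n k p S δ hδ hk hkn hp hS h hh
  obtain ⟨g, hg, rfl⟩ := (DRV.sh_bij (k := k) hp hS).surjOn hh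
  obtain ⟨h1, h2, h3, h4, h5, _⟩ := s_can n k p S δ hδ hk hkn hp hS g hg
  exact ⟨h1, h2, h3, h4, h5⟩

theorem s_step : DRV.S_step := STEP.s_step canCs

end Vale.Agent.P153.R2.POLY
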