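import Mathlib

/-!
# P153, block POLY: arcs in sets which are locally arcs

`Loc Z x U φ`: the continuous function `φ` is injective on the part of `Z` in the open set `U ∋ x`.
Two arcs in such a set with the same end points have the same image.
-/

set_option linter.all false

namespace Vale.Agent.P153.R2.POLY

open Set Filter Topology

variable {E : Type*} [TopologicalSpace E]

/-- `φ` is a coordinate of `Z` in the neighbourhood `U` of `x`. -/
structure Loc (Z : Set E) (x : E) (U : Set E) (φ : E → ℝ) : Prop where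
  isOpen : IsOpen U
  mem : x ∈ U
  cont : Continuous φ
  inj : InjOn φ (Z ∩ U)

/-- An arc in `Z`. -/
structure ArcIn (Z : Set E) (G : ℝ → E) : Prop where
  cont : Continuous G
  inj : InjOn G (Icc 0 1)
  mem : ∀ t ∈ Icc (0 : ℝ) 1, G t ∈ Z

variable {Z : Set E} {G : ℝ → E} {U : Set E} {φ : E → ℝ}

/-- The intermediate value theorem along an arc. -/
theorem ivt (hG : ArcIn Z G) {a b : ℝ} (ha : 0 ≤ a) (hb : b ≤ 1) (hab : a ≤ b)
    (hU : ∀ t ∈ Icc a b, G t ∈ U) (hc : Continuous φ) (hi : InjOn φ (Z ∩ U)) {z : E} (hz : z ∈ Z ∩ U)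
    (h : φ z ∈ uIcc (φ (G a)) (φ (G b))) : z ∈ G '' Icc 0 1 := by
  have h1 := intermediate_value_uIcc (f := fun t => φ (G t)) (a := a) (b := b)
    (hc.comp hG.cont).continuousOn h
  rw [uIcc_of_le hab] at h1
  obtain ⟨t, ht, he⟩ := h1
  have ht' : t ∈ Icc (0 : ℝ) 1 := ⟨ha.trans ht.1, ht.2.trans hb⟩
  exact ⟨t, ht', hi ⟨hG.mem t ht', hU t ht⟩ hz he⟩

theorem open_mid (hG : ArcIn Z G) {s : ℝ} (hL : Loc Z (G s) U φ) (hs : s ∈ Ioo (0 : ℝ) 1) :
    ∃ V, IsOpen V ∧ G s ∈ V ∧ Z ∩ V ⊆ G '' Icc 0 1 := by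
  obtain ⟨e, he, hball⟩ := Metric.isOpen_iff.1 (hL.isOpen.preimage hG.cont) s hL.mem
  set r := min (e / 2) (min (s / 2) ((1 - s) / 2)) with hr
  have hr1 : r ≤ e / 2 := min_le_left _ _
  have hr2 : r ≤ s / 2 := (min_le_right _ _).trans (min_le_left _ _)
  have hr3 : r ≤ (1 - s) / 2 := (min_le_right _ _).trans (min_le_right _ _)
  have hr0 : 0 < r := lt_min (by linarith) (lt_min (by linarith [hs.1]) (by linarith [hs.2]))
  have hU : ∀ t ∈ Icc (s - r) (s + r), G t ∈ U := by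
    intro t ht
    apply hball
    rw [Metric.mem_ball, Real.dist_eq, abs_lt]
    constructor <;> linarith [ht.1, ht.2]
  have ha : 0 ≤ s - r := by linarith [hs.1]
  have hb : s + r ≤ 1 := by linarith [hs.2]
  have hinj : InjOn (fun t => φ (G t)) (Icc (s - r) (s + r)) := by
    intro t ht u hu h
    have h1 : t ∈ Icc (0 : ℝ) 1 := ⟨ha.trans ht.1, ht.2.trans hb⟩
    have h2 : u ∈ Icc (0 : ℝ) 1 := ⟨ha.trans hu.1, hu.2.trans hb⟩
    exact hG.inj h1 h2 (hL.inj ⟨hG.mem t h1, hU t ht⟩ ⟨hG.mem u h2, hU u hu⟩ h)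
  have hm := ContinuousOn.strictMonoOn_of_injOn_Icc' (f := fun t => φ (G t)) (a := s - r)
    (b := s + r) (by linarith) (hL.cont.comp hG.cont).continuousOn hinj
  have m1 : s - r ∈ Icc (s - r) (s + r) := ⟨le_rfl, by linarith⟩
  have m2 : s ∈ Icc (s - r) (s + r) := ⟨by linarith, by linarith⟩
  have m3 : s + r ∈ Icc (s - r) (s + r) := ⟨by linarith, le_rfl⟩
  rcases hm with hm | hm
  · have g1 := hm m1 m2 (by linarith)
    have g2 := hm m2 m3 (by linarith)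
    refine ⟨U ∩ φ ⁻¹' Ioo (φ (G (s - r))) (φ (G (s + r))),
      hL.isOpen.inter (isOpen_Ioo.preimage hL.cont), ⟨hL.mem, g1, g2⟩, ?_⟩
    rintro z ⟨hz, hzU, hzφ⟩
    refine ivt hG ha hb (by linarith) hU hL.cont hL.inj ⟨hz, hzU⟩ ?_
    rw [uIcc_of_le (g1.trans g2).le]
    exact ⟨hzφ.1.le, hzφ.2.le⟩
  · have g1 := hm m1 m2 (by linarith)
    have g2 := hm m2 m3 (by linarith)
    refine ⟨U ∩ φ ⁻¹' Ioo (φ (G (s + r))) (φ (G (s - r))),
      hL.isOpen.inter (isOpen_Ioo.preimage hL.cont), ⟨hL.mem, g2, g1⟩, ?_⟩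
    rintro z ⟨hz, hzU, hzφ⟩
    refine ivt hG ha hb (by linarith) hU hL.cont hL.inj ⟨hz, hzU⟩ ?_
    rw [uIcc_of_ge (g2.trans g1).le]
    exact ⟨hzφ.1.le, hzφ.2.le⟩

theorem open_left (hG : ArcIn Z G) (hL : Loc Z (G 0) U φ)
    (hmin : ∀ z ∈ Z ∩ U, φ (G 0) ≤ φ z) : ∃ V, IsOpen V ∧ G 0 ∈ V ∧ Z ∩ V ⊆ G '' Icc 0 1 := by
  obtain ⟨e, he, hball⟩ := Metric.isOpen_iff.1 (hL.isOpen.preimage hG.cont) 0 hL.mem
  set r := min (e / 2) 1 with hr
  have hr1 : r ≤ e / 2 := min_le_left _ _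
  have hr2 : r ≤ 1 := min_le_right _ _
  have hr0 : 0 < r := lt_min (by linarith) one_pos
  have hU : ∀ t ∈ Icc 0 r, G t ∈ U := by
    intro t ht
    apply hball
    rw [Metric.mem_ball, Real.dist_eq, abs_lt]
    constructor <;> linarith [ht.1, ht.2]
  have m1 : (0 : ℝ) ∈ Icc (0 : ℝ) 1 := ⟨le_rfl, zero_le_one⟩
  have m2 : r ∈ Icc (0 : ℝ) 1 := ⟨hr0.le, hr2⟩
  have hlt : φ (G 0) < φ (G r) := by
    refine lt_of_le_of_ne (hmin _ ⟨hG.mem r m2, hU r ⟨hr0.le, le_rfl⟩⟩) fun h => ?_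
    have := hG.inj m1 m2 (hL.inj ⟨hG.mem 0 m1, hL.mem⟩ ⟨hG.mem r m2, hU r ⟨hr0.le, le_rfl⟩⟩ h)
    exact hr0.ne this
  refine ⟨U ∩ φ ⁻¹' Iio (φ (G r)), hL.isOpen.inter (isOpen_Iio.preimage hL.cont), ⟨hL.mem, hlt⟩, ?_⟩
  rintro z ⟨hz, hzU, hzφ⟩
  refine ivt hG le_rfl hr2 hr0.le hU hL.cont hL.inj ⟨hz, hzU⟩ ?_
  rw [uIcc_of_le hlt.le]
  exact ⟨hmin z ⟨hz, hzU⟩, le_of_lt hzφ⟩

theorem open_right (hG : ArcIn Z G) (hL : Loc Z (G 1) U φ)
    (hmin : ∀ z ∈ Z ∩ U, φ (G 1) ≤ φ z) : ∃ V, IsOpen V ∧ G 1 ∈ V ∧ Z ∩ V ⊆ G '' Icc 0 1 := by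
  have hG' : ArcIn Z fun t => G (1 - t) := by
    refine ⟨hG.cont.comp (by fun_prop), ?_, ?_⟩
    · intro t ht u hu h
      have := hG.inj (x₁ := 1 - t) (x₂ := 1 - u) ⟨by linarith [ht.2], by linarith [ht.1]⟩
        ⟨by linarith [hu.2], by linarith [hu.1]⟩ h
      linarith
    · intro t ht
      exact hG.mem _ ⟨by linarith [ht.2], by linarith [ht.1]⟩
  have e0 : G (1 - 0) = G 1 := by norm_num
  obtain ⟨V, h1, h2, h3⟩ := open_left hG' (U := U) (φ := φ) (by simpa using hL)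
    (by simpa using hmin)
  refine ⟨V, h1, by simpa using h2, h3.trans ?_⟩
  rintro _ ⟨t, ht, rfl⟩
  exact ⟨1 - t, ⟨by linarith [ht.2], by linarith [ht.1]⟩, rfl⟩

/-- An arc which is open in `Z` contains every arc which it meets. -/
theorem arc_sub [T2Space E] {G' : ℝ → E} (hG : ArcIn Z G) (hG' : ArcIn Z G')
    (hopen : ∀ s ∈ Icc (0 : ℝ) 1, ∃ V, IsOpen V ∧ G s ∈ V ∧ Z ∩ V ⊆ G '' Icc 0 1)
    (h0 : G' 0 = G 0) : G' '' Icc 0 1 ⊆ G '' Icc 0 1 := by
  have hcl : IsClosed (G '' Icc 0 1) := (isCompact_Icc.image hG.cont).isClosed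
  set A : Set ℝ := {t | G' t ∈ G '' Icc 0 1} with hA
  have hAc : IsClosed A := hcl.preimage hG'.cont
  -- an open set which meets the interval exactly in `A`
  choose! V hV1 hV2 hV3 using hopen
  set B : Set ℝ := ⋃ s ∈ Icc (0 : ℝ) 1, G' ⁻¹' V s with hB
  have hBo : IsOpen B := isOpen_biUnion fun s hs => (hV1 s hs).preimage hG'.cont
  have hAB : Icc (0 : ℝ) 1 ∩ A ⊆ B := by
    rintro t ⟨ht, s, hs, he⟩
    rw [hB, mem_iUnion₂]
    refine ⟨s, hs, ?_⟩
    change G' t ∈ V s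
    rw [← he]
    exact hV2 s hs
  have hBA : Icc (0 : ℝ) 1 ∩ B ⊆ A := by
    rintro t ⟨ht, hB'⟩
    rw [hB, mem_iUnion₂] at hB'
    obtain ⟨s, hs, h⟩ := hB'
    exact hV3 s hs ⟨hG'.mem t ht, h⟩
  have hsub : Icc (0 : ℝ) 1 ⊆ A := by
    have hpre : IsPreconnected (Icc (0 : ℝ) 1) := isPreconnected_Icc
    by_contra hc
    rw [not_subset] at hc
    obtain ⟨t, ht, hta⟩ := hc
    obtain ⟨u, hu1, hu2, hu3⟩ := hpre B Aᶜ hBo hAc.isOpen_compl (by
      intro u hu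
      by_cases h : u ∈ A
      · exact Or.inl (hAB ⟨hu, h⟩)
      · exact Or.inr h) ⟨0, ⟨le_rfl, zero_le_one⟩, hAB ⟨⟨le_rfl, zero_le_one⟩, by
        change G' 0 ∈ G '' Icc 0 1
        rw [h0]
        exact ⟨0, ⟨le_rfl, zero_le_one⟩, rfl⟩⟩⟩ ⟨t, ht, hta⟩
    exact hu3 (hBA ⟨hu1, hu2⟩)
  rintro _ ⟨t, ht, rfl⟩
  exact hsub ht

/-- Two injective curves with the same image and the same end points differ by an increasing
homeomorphism. -/
theorem exists_reparam [T2Space E] (c c' : C(unitInterval, E)) (hc : Function.Injective c)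
    (hc' : Function.Injective c') (hr : range c' = range c) (h0 : c' 0 = c 0) (h1 : c' 1 = c 1) :
    ∃ σ : unitInterval ≃o unitInterval, ∀ t, c' t = c (σ t) := by
  have he : IsClosedEmbedding c := c.continuous.isClosedEmbedding hc
  set H := he.isEmbedding.toHomeomorph with hH
  set f : unitInterval → unitInterval := fun t => H.symm ⟨c' t, hr ▸ mem_range_self t⟩ with hf
  have hfc : Continuous f := H.symm.continuous.comp (c'.continuous.subtype_mk _)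
  have hcf : ∀ t, c (f t) = c' t := by
    intro t
    have := H.apply_symm_apply ⟨c' t, hr ▸ mem_range_self t⟩
    exact congrArg Subtype.val this
  have hfi : Function.Injective f := by
    intro s t h
    apply hc'
    rw [← hcf s, ← hcf t, h]
  have f0 : f 0 = 0 := hc (by rw [hcf, h0])
  have f1 : f 1 = 1 := hc (by rw [hcf, h1])
  have hmono : StrictMono f := by
    apply hfc.strictMono_of_inj_boundedOrder _ hfi
    change f 0 ≤ f 1
    rw [f0, f1]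
    exact zero_le_one
  have hsurj : Function.Surjective f := by
    intro u
    have : c u ∈ range c' := by rw [hr]; exact mem_range_self u
    obtain ⟨t, ht⟩ := this
    exact ⟨t, hc (by rw [hcf, ht])⟩
  refine ⟨hmono.orderIsoOfSurjective f hsurj, fun t => ?_⟩
  exact (hcf t).symm

end Vale.Agent.P153.R2.POLY
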