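import Vale.Agent.P153.R2.POLY.Aff
import Vale.Agent.P153.R2.INTF.Reg

/-!
# P153, block POLY: the lattice coordinates of the mesh `δ`

`NN hδ : ℂ ≃ₜ ℝ × ℝ`: lattice coordinates.
-/

set_option linter.all false

namespace Vale.Agent.P153.R2.POLY

open Vale.Agent.P153.R2.Final Set Filter Topology
open Vale.Agent.P153.R2.INTF (lx ly QQ lx_QQ ly_QQ eq_of_coord continuous_lx continuous_ly Face Reg
  mem_Reg_iff PP lx_PP ly_PP lx_comb ly_comb)

theorem continuous_QQ (δ : ℝ) : Continuous fun w : ℝ × ℝ => QQ δ w.1 w.2 := by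
  have h : (fun w : ℝ × ℝ => QQ δ w.1 w.2) =
      fun w => ((δ * (w.1 + w.2 / 2) : ℝ) : ℂ) + ((δ * (√3 / 2 * w.2) : ℝ) : ℂ) * Complex.I := by
    funext w
    apply Complex.ext <;> simp [QQ]
  rw [h]
  fun_prop

/-- The lattice coordinates of the mesh `δ`. -/
noncomputable def NN {δ : ℝ} (hδ : 0 < δ) : ℂ ≃ₜ ℝ × ℝ where
  toFun z := (lx δ z, ly δ z)
  invFun w := QQ δ w.1 w.2
  left_inv z := eq_of_coord hδ (lx_QQ hδ _ _) (ly_QQ hδ _ _)
  right_inv w := Prod.ext (lx_QQ hδ _ _) (ly_QQ hδ _ _)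
  continuous_toFun := (continuous_lx δ).prodMk (continuous_ly δ)
  continuous_invFun := continuous_QQ δ

variable {δ : ℝ} (hδ : 0 < δ)

theorem NN_apply (z : ℂ) : NN hδ z = (lx δ z, ly δ z) := rfl

theorem mem_Face_iff_NN {t : Tri} {z : ℂ} : z ∈ Face δ t ↔ NN hδ z ∈ ct t := by
  obtain ⟨v, b⟩ := t
  rw [NN_apply, mem_ct]
  change INTF.InF (v, b) (lx δ z) (ly δ z) ↔ _
  cases b
  · simp only [INTF.InF, la, lb, Bool.false_eq_true, if_false]
    constructor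
    · rintro ⟨h1, h2, h3⟩
      exact ⟨by linarith, by linarith, by linarith⟩
    · rintro ⟨h1, h2, h3⟩
      exact ⟨by linarith, by linarith, by linarith⟩
  · simp only [INTF.InF, la, lb, if_true]
    constructor
    · rintro ⟨h1, h2, h3⟩
      exact ⟨by linarith, by linarith, by linarith⟩
    · rintro ⟨h1, h2, h3⟩
      exact ⟨by linarith, by linarith, by linarith⟩

theorem mem_Reg_iff_NN {S : Finset Tri} {z : ℂ} :
    z ∈ toC '' region δ S ↔ NN hδ z ∈ RR (S : Set Tri) := by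
  have h : z ∈ toC '' region δ S ↔ ∃ t ∈ S, z ∈ Face δ t := mem_Reg_iff hδ
  rw [h]
  constructor
  · rintro ⟨t, ht, hz⟩
    exact ⟨t, ht, (mem_Face_iff_NN hδ).1 hz⟩
  · rintro ⟨t, ht, hz⟩
    exact ⟨t, ht, (mem_Face_iff_NN hδ).2 hz⟩

theorem region_eq (S : Finset Tri) : toC '' region δ S = NN hδ ⁻¹' RR (S : Set Tri) :=
  Set.ext fun _ => mem_Reg_iff_NN hδ

theorem interp_eq (h : ℤ × ℤ → ℤ) (z : ℂ) : interp h (z.re / δ, z.im / δ) = ff h (NN hδ z) := rfl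

theorem NN_PP (v : ℤ × ℤ) : NN hδ (PP δ v) = rp v := by
  rw [NN_apply, lx_PP hδ, ly_PP hδ]
  rfl

theorem NN_comb (a b : ℝ) (z w : ℂ) :
    NN hδ ((a : ℂ) * z + (b : ℂ) * w) = a • NN hδ z + b • NN hδ w := by
  rw [NN_apply, NN_apply, NN_apply, lx_comb, ly_comb]
  rfl

theorem mid_eq (v w : ℤ × ℤ) : mid δ v w = ((1 / 2 : ℝ) : ℂ) * PP δ v + ((1 / 2 : ℝ) : ℂ) * PP δ w := by
  apply Complex.ext
  · simp [mid, toC, PP, pt]
    ring
  · simp [mid, toC, PP, pt]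
    ring

theorem NN_mid (v w : ℤ × ℤ) : NN hδ (mid δ v w) = (1 / 2 : ℝ) • rp v + (1 / 2 : ℝ) • rp w := by
  rw [mid_eq, NN_comb, NN_PP, NN_PP]

theorem NN_mid_dir (v : ℤ × ℤ) (k : Fin 6) : NN hδ (mid δ v (v + dir k)) = ep v k (1 / 2) := by
  rw [NN_mid, ep]
  apply Prod.ext <;> simp [rp] <;> ring

/-- The image of a segment. -/
theorem NN_segment (z w : ℂ) : NN hδ '' segment ℝ z w = segment ℝ (NN hδ z) (NN hδ w) := by
  ext x
  constructor
  · rintro ⟨y, ⟨a, b, ha, hb, hab, rfl⟩, rfl⟩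
    refine ⟨a, b, ha, hb, hab, ?_⟩
    have := NN_comb hδ a b z w
    rw [← this]
    congr 1
  · rintro ⟨a, b, ha, hb, hab, rfl⟩
    refine ⟨(a : ℂ) * z + (b : ℂ) * w, ⟨a, b, ha, hb, hab, ?_⟩, NN_comb hδ a b z w⟩
    rfl

end Vale.Agent.P153.R2.POLY
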