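import Vale.Agent.P153.R2.POLY.Zero
import Vale.Agent.P153.R2.POLY.Arc
import Vale.Agent.P153.R2.POLY.Tr
import Vale.Agent.P153.R2.UNIQ.Inputs

/-!
# P153, block POLY, part 6: the interface is unique up to reparametrisation
-/

set_option linter.all false

namespace Vale.Agent.P153.R2.POLY

open Vale.Agent.P153.R2.Final Set Filter Topology

theorem ep_half (v : ℤ × ℤ) (k : Fin 6) :
    ep v k (1 / 2) = (1 / 2 : ℝ) • rp v + (1 / 2 : ℝ) • rp (v + dir k) := by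
  rw [ep]
  apply Prod.ext <;> simp [rp] <;> ring

theorem ta_ne_tb (v : ℤ × ℤ) (k : Fin 6) : ta v k ≠ tb v k := by
  obtain ⟨a, b⟩ := v
  fin_cases k <;> simp [ta, tb]

theorem ep_mem_DD (v : ℤ × ℤ) (k : Fin 6) : ep v k (1 / 2) ∈ DD {ta v k, tb v k} :=
  fun t ht => (ep_unique (by norm_num) (by norm_num) ht).symm

theorem sides_of_DD {v : ℤ × ℤ} {k : Fin 6} {T : Set Tri} (h : ep v k (1 / 2) ∈ DD T) :
    ta v k ∈ T ∧ tb v k ∈ T :=
  ⟨h _ (ep_mem_ta v k (by norm_num) (by norm_num)), h _ (ep_mem_tb v k (by norm_num) (by norm_num))⟩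

section Main

variable {n : ℕ} {p : ZMod n → ℤ × ℤ} {S : Finset Tri} {h : ℤ × ℤ → ℤ} {K : ℕ}

theorem mem_Zs_of {v : ℤ × ℤ} {k : Fin 6} {z : ℝ × ℝ} (hz : z ∈ ZZ h S)
    (hU : z ∈ DD {ta v k, tb v k}) : z ∈ Zs h S v k := by
  obtain ⟨⟨t, ht, hzt⟩, h0⟩ := hz
  rcases hU t hzt with rfl | h1
  · exact ⟨h0, Or.inl ⟨hzt, ht⟩⟩
  · have h1' : t = tb v k := h1
    subst h1'
    exact ⟨h0, Or.inr ⟨hzt, ht⟩⟩

/-- The zero set near each of its points. -/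
theorem loc_cases (hp : IsPolygon p) (hS : Encloses p S) (hh : HOK h S) {z : ℝ × ℝ}
    (hz : z ∈ ZZ h S) :
    (z ∈ DD (S : Set Tri) ∧ ∃ U φ, Loc (ZZ h S) z U φ) ∨
      ∃ v k, Chg h v k ∧ z = ep v k (1 / 2) ∧ IsEdge p v (v + dir k) ∧
        ∃ U φ, Loc (ZZ h S) z U φ ∧ ∀ w ∈ ZZ h S ∩ U, φ z ≤ φ w := by
  rcases zero_pos hh hz with ⟨v, k, hk, hc, hzo⟩ | ⟨v, k, hc, rfl, hs⟩
  · refine Or.inl ⟨ot_sub_DD (T := (S : Set Tri)) hk hzo, ot (ta v k), fy v k, isOpen_ot _, hzo,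
      fy_cont v k, ?_⟩
    refine (injOn_fy hh hc).mono ?_
    rintro w ⟨hw, hwo⟩
    exact ⟨hw.2, Or.inl ⟨ot_sub_ct _ hwo, hk⟩⟩
  · have hL : Loc (ZZ h S) (ep v k (1 / 2)) (DD {ta v k, tb v k}) (fy v k) :=
      ⟨isOpen_DD _, ep_mem_DD v k, fy_cont v k, (injOn_fy hh hc).mono fun w hw => mem_Zs_of hw.1 hw.2⟩
    by_cases ha : ta v k ∈ S
    · by_cases hb : tb v k ∈ S
      · refine Or.inl ⟨fun t ht => ?_, _, _, hL⟩
        rcases ep_mem_DD v k t ht with rfl | h1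
        · exact ha
        · have h1' : t = tb v k := h1
          rw [h1']
          exact hb
      · refine Or.inr ⟨v, k, hc, rfl, (side_dir hS v k).2 (by tauto), _, _, hL, ?_⟩
        rintro w ⟨hw, hwU⟩
        rw [fy_ep]
        rcases (mem_Zs_of hw hwU).2 with ⟨h1, h2⟩ | ⟨h1, h2⟩
        · exact (mem_ct_ta.1 h1).2.1
        · exact absurd h2 hb
    · have hb : tb v k ∈ S := hs.resolve_left ha
      have hL' : Loc (ZZ h S) (ep v k (1 / 2)) (DD {ta v k, tb v k}) (fun w => -fy v k w) :=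
        ⟨hL.isOpen, hL.mem, hL.cont.neg, fun x hx y hy e => hL.inj hx hy (neg_injective e)⟩
      refine Or.inr ⟨v, k, hc, rfl, (side_dir hS v k).2 (by tauto), _, _, hL', ?_⟩
      rintro w ⟨hw, hwU⟩
      simp only [fy_ep]
      rcases (mem_Zs_of hw hwU).2 with ⟨h1, h2⟩ | ⟨h1, h2⟩
      · exact absurd h2 ha
      · linarith [(mem_ct_tb.1 h1).1]

theorem not_mem_DD (hp : IsPolygon p) (hS : Encloses p S) {i : ZMod n} {a b : ℤ × ℤ} (ha : p i = a)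
    (hb : p (i + 1) = b) : (1 / 2 : ℝ) • rp a + (1 / 2 : ℝ) • rp b ∉ DD (S : Set Tri) := by
  intro hD
  obtain ⟨k, hk⟩ := exists_dir hp i
  subst ha
  subst hb
  rw [hk, ← ep_half] at hD
  have h1 := sides_of_DD hD
  have h2 : IsEdge p (p i) (p i + dir k) := ⟨i, Or.inl ⟨rfl, hk⟩⟩
  exact (side_dir hS _ _).1 h2 ⟨fun _ => h1.1, fun _ => h1.2⟩

/-- The two edges of the polygon with a change of sign. -/
theorem edge_pm (hn : 1 < n) (hK : 0 < K) (hKn : K < n)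
    (hb : ∀ i : ZMod n, h (p i) = if i.val < K then 1 else -1) {v : ℤ × ℤ} {k : Fin 6}
    (hc : Chg h v k) (he : IsEdge p v (v + dir k)) :
    ep v k (1 / 2) = (1 / 2 : ℝ) • rp (p (-1)) + (1 / 2 : ℝ) • rp (p 0) ∨
      ep v k (1 / 2) = (1 / 2 : ℝ) • rp (p ((K : ZMod n) - 1)) + (1 / 2 : ℝ) • rp (p K) := by
  have : NeZero n := ⟨by omega⟩
  obtain ⟨i, hi⟩ := he
  have hm : ep v k (1 / 2) = (1 / 2 : ℝ) • rp (p i) + (1 / 2 : ℝ) • rp (p (i + 1)) := by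
    rw [ep_half]
    rcases hi with ⟨e1, e2⟩ | ⟨e1, e2⟩
    · rw [e1, e2]
    · rw [e1, e2, add_comm]
  have hne : h (p i) ≠ h (p (i + 1)) := by
    rcases hi with ⟨e1, e2⟩ | ⟨e1, e2⟩ <;> rw [e1, e2] <;>
      rcases hc with ⟨c1, c2⟩ | ⟨c1, c2⟩ <;> rw [c1, c2] <;> norm_num
  rw [hb, hb] at hne
  rw [hm]
  have hlt := ZMod.val_lt i
  by_cases hlast : i.val + 1 = n
  · left
    have e : i + 1 = 0 := by
      rw [← ZMod.natCast_zmod_val i]
      have : ((i.val + 1 : ℕ) : ZMod n) = ((n : ℕ) : ZMod n) := by rw [hlast]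
      rw [ZMod.natCast_self] at this
      exact_mod_cast this
    have e' : i = -1 := eq_neg_of_add_eq_zero_left e
    rw [e, e']
  · right
    have v1 : (1 : ZMod n).val = 1 := ZMod.val_one'' (by omega)
    have e : (i + 1).val = i.val + 1 := by
      rw [ZMod.val_add_of_lt (by rw [v1]; omega), v1]
    rw [e] at hne
    have h3 : i.val + 1 = K := by
      by_contra h4
      apply hne
      by_cases h5 : i.val < K
      · rw [if_pos h5, if_pos (by omega)]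
      · rw [if_neg h5, if_neg (by omega)]
    have e' : i + 1 = (K : ZMod n) := by
      rw [← h3]
      push_cast
      rw [ZMod.natCast_zmod_val i]
    have e'' : i = (K : ZMod n) - 1 := by rw [← e']; ring
    rw [e', ← e'']

theorem openness (hp : IsPolygon p) (hS : Encloses p S) (hK : 0 < K) (hKn : K < n)
    (hh : h ∈ Heights p K S) {G : ℝ → ℝ × ℝ} (hG : ArcIn (ZZ h S) G)
    (h0 : G 0 = (1 / 2 : ℝ) • rp (p (-1)) + (1 / 2 : ℝ) • rp (p 0))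
    (h1 : G 1 = (1 / 2 : ℝ) • rp (p ((K : ZMod n) - 1)) + (1 / 2 : ℝ) • rp (p K)) :
    ∀ s ∈ Icc (0 : ℝ) 1, ∃ V, IsOpen V ∧ G s ∈ V ∧ ZZ h S ∩ V ⊆ G '' Icc 0 1 := by
  intro s hs
  have hok : HOK h S := ⟨hh.1, hh.2.2.1⟩
  rcases loc_cases hp hS hok (hG.mem s hs) with ⟨hD, U, φ, hL⟩ | ⟨v, k, hc, hz, he, U, φ, hL, hmin⟩
  · have hs0 : s ≠ 0 := by
      rintro rfl
      rw [h0] at hD
      exact not_mem_DD hp hS (i := -1) rfl (by rw [neg_add_cancel]) hD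
    have hs1 : s ≠ 1 := by
      rintro rfl
      rw [h1] at hD
      exact not_mem_DD hp hS (i := (K : ZMod n) - 1) rfl (by rw [sub_add_cancel]) hD
    exact open_mid hG hL ⟨lt_of_le_of_ne hs.1 (Ne.symm hs0), lt_of_le_of_ne hs.2 hs1⟩
  · rcases edge_pm (by have := hp.1; omega) hK hKn hh.2.1 hc he with e | e
    · have : s = 0 := hG.inj hs ⟨le_rfl, zero_le_one⟩ (by rw [hz, e, h0])
      subst this
      exact open_left hG hL hmin
    · have : s = 1 := hG.inj hs ⟨zero_le_one, le_rfl⟩ (by rw [hz, e, h1])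
      subst this
      exact open_right hG hL hmin

end Main

/-- The interface in lattice coordinates, extended to the real line. -/
noncomputable def lc {δ : ℝ} (hδ : 0 < δ) (c : C(unitInterval, ℂ)) (t : ℝ) : ℝ × ℝ :=
  NN hδ (c (projIcc 0 1 zero_le_one t))

theorem lc_image {δ : ℝ} (hδ : 0 < δ) (c : C(unitInterval, ℂ)) :
    lc hδ c '' Icc 0 1 = NN hδ '' range c := by
  ext z
  constructor
  · rintro ⟨t, ht, rfl⟩
    exact ⟨_, mem_range_self _, rfl⟩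
  · rintro ⟨_, ⟨t, rfl⟩, rfl⟩
    refine ⟨t, t.2, ?_⟩
    rw [lc, projIcc_val]

theorem lc_zero {δ : ℝ} (hδ : 0 < δ) (c : C(unitInterval, ℂ)) : lc hδ c 0 = NN hδ (c 0) := by
  rw [lc, projIcc_left]
  rfl

theorem lc_one {δ : ℝ} (hδ : 0 < δ) (c : C(unitInterval, ℂ)) : lc hδ c 1 = NN hδ (c 1) := by
  rw [lc, projIcc_right]
  rfl

theorem lc_arc {n : ℕ} {p : ZMod n → ℤ × ℤ} {S : Finset Tri} {h : ℤ × ℤ → ℤ} {K : ℕ} {δ : ℝ}
    (hδ : 0 < δ) {c : C(unitInterval, ℂ)} (hc : IsInterface p K S δ h c) :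
    ArcIn (ZZ h S) (lc hδ c) := by
  refine ⟨(NN hδ).continuous.comp (c.continuous.comp continuous_projIcc), ?_, ?_⟩
  · intro s hs t ht e
    have e1 := hc.1 ((NN hδ).injective e)
    have e2 := congrArg Subtype.val e1
    rwa [projIcc_of_mem zero_le_one hs, projIcc_of_mem zero_le_one ht] at e2
  · intro t ht
    obtain ⟨h1, h2⟩ := hc.2.2.2 (projIcc 0 1 zero_le_one t)
    exact ⟨(mem_Reg_iff_NN hδ).1 ⟨_, h1, rfl⟩, h2⟩

/-- **The interface is unique up to reparametrisation.** -/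
theorem i_intu : UNIQ.I_intu := by
  intro n K p S δ hδ hK hKn hp hS h hh c c' hc hc'
  have ha := lc_arc hδ hc
  have ha' := lc_arc hδ hc'
  have h0 : lc hδ c 0 = (1 / 2 : ℝ) • rp (p (-1)) + (1 / 2 : ℝ) • rp (p 0) := by
    rw [lc_zero, hc.2.1, NN_mid]
  have h1 : lc hδ c 1 = (1 / 2 : ℝ) • rp (p ((K : ZMod n) - 1)) + (1 / 2 : ℝ) • rp (p K) := by
    rw [lc_one, hc.2.2.1, NN_mid]
  have h0' : lc hδ c' 0 = (1 / 2 : ℝ) • rp (p (-1)) + (1 / 2 : ℝ) • rp (p 0) := by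
    rw [lc_zero, hc'.2.1, NN_mid]
  have h1' : lc hδ c' 1 = (1 / 2 : ℝ) • rp (p ((K : ZMod n) - 1)) + (1 / 2 : ℝ) • rp (p K) := by
    rw [lc_one, hc'.2.2.1, NN_mid]
  have s1 := arc_sub ha ha' (openness hp hS hK hKn hh ha h0 h1) (h0'.trans h0.symm)
  have s2 := arc_sub ha' ha (openness hp hS hK hKn hh ha' h0' h1') (h0.trans h0'.symm)
  have s3 := Subset.antisymm s1 s2
  rw [lc_image, lc_image] at s3
  have hr : range c' = range c := (NN hδ).injective.image_injective s3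
  obtain ⟨τ, hτ⟩ := exists_reparam c c' hc.1 hc'.1 hr (by rw [hc.2.1, hc'.2.1])
    (by rw [hc.2.2.1, hc'.2.2.1])
  refine ⟨τ, ?_⟩
  ext t
  exact hτ t

end Vale.Agent.P153.R2.POLY
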