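import Vale.Agent.P153.R2.POLY.Can

/-!
# P153, block POLY: free vertices and points of the slit domain

A vertex which is not free after `κ` steps is within distance `δ` of a point off the slit domain,
and conversely.
-/

set_option linter.all false

namespace Vale.Agent.P153.R2.POLY

open Vale.Agent.P153.R2.Final Set Filter Topology
open Vale.Agent.P153.R2.INTF (St run fa fb ah len Good NZ Alive PP Fk Lk Rk Face lx ly QQ)
open Vale.Agent.P153.R2.DRV (st ru nu pl)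
open Vale.Agent.P153.R2.FLDI (inn)

theorem QQ_lx {δ : ℝ} (hδ : 0 < δ) (z : ℂ) : QQ δ (lx δ z) (ly δ z) = z :=
  (NN hδ).left_inv z

/-- The distance in lattice coordinates. -/
theorem dist_sq {δ : ℝ} (hδ : 0 < δ) (z w : ℂ) : dist z w ^ 2 =
    δ ^ 2 * ((lx δ z - lx δ w) ^ 2 + (lx δ z - lx δ w) * (ly δ z - ly δ w) +
      (ly δ z - ly δ w) ^ 2) := by
  conv_lhs => rw [← QQ_lx hδ z, ← QQ_lx hδ w]
  rw [Complex.dist_eq, ← Complex.normSq_eq_norm_sq, Complex.normSq_apply]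
  simp only [QQ, Complex.sub_re, Complex.sub_im]
  have h3 : √3 * √3 = (3 : ℝ) := Real.mul_self_sqrt (by norm_num)
  linear_combination (δ ^ 2 * (ly δ z - ly δ w) ^ 2 / 4) * h3

theorem quad_le {a b : ℝ} (h1 : |a| ≤ 1) (h2 : |b| ≤ 1) (h3 : |a + b| ≤ 1) :
    a ^ 2 + a * b + b ^ 2 ≤ 1 := by
  have c1 := sq_le_one_iff_abs_le_one _ |>.2 h1
  have c2 := sq_le_one_iff_abs_le_one _ |>.2 h2
  have c3 := sq_le_one_iff_abs_le_one _ |>.2 h3
  rcases le_total 0 a with ha | ha <;> rcases le_total 0 b with hb | hb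
  · nlinarith [mul_nonneg ha hb]
  · rcases le_total 0 (a + b) with h | h
    · nlinarith [mul_nonneg (neg_nonneg.2 hb) h]
    · nlinarith [mul_nonneg ha (neg_nonneg.2 h)]
  · rcases le_total 0 (a + b) with h | h
    · nlinarith [mul_nonneg (neg_nonneg.2 ha) h]
    · nlinarith [mul_nonneg hb (neg_nonneg.2 h)]
  · nlinarith [mul_nonneg (neg_nonneg.2 ha) (neg_nonneg.2 hb)]

/-- The diameter of a face. -/
theorem dist_face {δ : ℝ} (hδ : 0 < δ) {t : Tri} {z w : ℂ} (hz : NN hδ z ∈ ct t)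
    (hw : NN hδ w ∈ ct t) : dist z w ≤ δ := by
  have key : (lx δ z - lx δ w) ^ 2 + (lx δ z - lx δ w) * (ly δ z - ly δ w) +
      (ly δ z - ly δ w) ^ 2 ≤ 1 := by
    obtain ⟨h1, h2, h3⟩ := mem_ct.1 hz
    obtain ⟨g1, g2, g3⟩ := mem_ct.1 hw
    obtain ⟨v, b⟩ := t
    apply quad_le
    all_goals
      cases b <;> simp only [NN_apply, la, lb, if_true, if_false, Bool.false_eq_true] at * <;>
        rw [abs_le] <;> constructor <;> linarith
  have h1 := dist_sq hδ z w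
  have h2 : dist z w ^ 2 ≤ δ ^ 2 := by
    rw [h1]
    nlinarith [sq_nonneg δ]
  exact le_of_sq_le_sq h2 hδ.le

theorem corner_mem {t : Tri} {v : ℤ × ℤ} (hv : v ∈ corners t) : rp v ∈ ct t := by
  obtain ⟨⟨a, b⟩, c⟩ := t
  rw [mem_ct]
  cases c <;> simp [corners] at hv <;> rcases hv with rfl | rfl | rfl <;>
    simp [rp, la, lb]

/-- The faces around an inner vertex are in the domain. -/
theorem faces_inn {n : ℕ} {p : ZMod n → ℤ × ℤ} {S : Finset Tri} (hS : Encloses p S) {v : ℤ × ℤ}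
    (hv : v ∈ inn p S) {t : Tri} (ht : v ∈ corners t) : t ∈ S := by
  have h1 : v ∈ F.Dom.verts S ∧ ∀ i, p i ≠ v := by simpa [inn, F.Dom.inner] using hv
  obtain ⟨s, hs, hvs⟩ := Finset.mem_biUnion.1 h1.1
  obtain ⟨k, rfl⟩ := rp_unique (corner_mem ht)
  obtain ⟨l, rfl⟩ := rp_unique (corner_mem (t := s) hvs)
  by_contra hc
  obtain ⟨m, i, hi⟩ := exists_edge_at hS hs hc
  rcases hi with ⟨e, _⟩ | ⟨_, e⟩
  · exact h1.2 _ e
  · exact h1.2 _ e

theorem PP_inn {n : ℕ} {p : ZMod n → ℤ × ℤ} {S : Finset Tri} {δ : ℝ} (hδ : 0 < δ)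
    (hp : IsPolygon p) (hS : Encloses p S) (v : ℤ × ℤ) : PP δ v ∈ DC δ S ↔ v ∈ inn p S := by
  rw [DC_eq hδ]
  change NN hδ (PP δ v) ∈ DD (S : Set Tri) ↔ _
  rw [NN_PP]
  constructor
  · intro h
    have h0 : ta v 0 ∈ S := h _ (rp_mem v 0)
    have h1 : v ∈ F.Dom.verts S := mem_verts h0 (cor_ta v 0).1
    have h2 : ∀ i, p i ≠ v := by
      rintro i rfl
      have hfr : rp (p i) ∈ frontier (DD (S : Set Tri)) := by
        rw [frontier_eq hp hS]
        exact rp_mem_EE ⟨i, Or.inl ⟨rfl, rfl⟩⟩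
      rw [(isOpen_DD _).frontier_eq] at hfr
      exact hfr.2 h
    simp [inn, F.Dom.inner, h1]
    exact h2
  · intro h t ht
    apply faces_inn hS h
    obtain ⟨k, rfl⟩ := rp_unique ht
    exact (cor_ta v k).1

section Main

variable {n : ℕ} {p : ZMod n → ℤ × ℤ} {S : Finset Tri} {δ : ℝ}

/-- The slit domain after `κ` steps. -/
def SO (δ : ℝ) (p : ZMod n → ℤ × ℤ) (S : Finset Tri) (h : ℤ × ℤ → ℤ) (κ : ℕ) : Set ℂ :=
  toC '' interior (region δ S) \ pl δ (ru p S h) '' Icc 0 (κ : ℝ)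

theorem ru_adj (hp : IsPolygon p) (hS : Encloses p S) (h : ℤ × ℤ → ℤ) (j : ℕ) :
    Vale.Agent.P153.Adj (ru p S h j).1 (ru p S h j).2 := by
  unfold ru
  induction j with
  | zero => exact st_adj hp hS
  | succ j ih =>
    rw [run]
    split
    · exact INTF.nx_adj ih
    · exact ih

theorem pl_nat (ρ : ℕ → St) (j : ℕ) : pl δ ρ j = mid δ (ρ j).1 (ρ j).2 := by
  rw [pl, Nat.floor_natCast, sub_self]
  simp

theorem NN_fst {s : St} (hδ : 0 < δ) (hs : Vale.Agent.P153.Adj s.1 s.2) :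
    NN hδ (PP δ s.1) ∈ ct (fa s) := by
  rw [NN_PP]
  obtain ⟨v, k, rfl⟩ := st_dir hs
  rw [fa_dir]
  exact corner_mem (cor_tb v k).2.1

theorem NN_snd {s : St} (hδ : 0 < δ) (hs : Vale.Agent.P153.Adj s.1 s.2) :
    NN hδ (PP δ s.2) ∈ ct (fa s) := by
  rw [NN_PP]
  obtain ⟨v, k, rfl⟩ := st_dir hs
  rw [fa_dir]
  exact corner_mem (cor_tb v k).1

/-- A vertex which is not free is close to a point off the slit domain. -/
theorem near_of_notMem (hδ : 0 < δ) (hp : IsPolygon p) (hS : Encloses p S) (h : ℤ × ℤ → ℤ) {κ : ℕ}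
    {v : ℤ × ℤ} (hv : v ∉ Fk (inn p S) h S (st p S) κ) :
    ∃ y, y ∉ toC '' interior (region δ S) \ pl δ (ru p S h) '' Icc 0 (κ : ℝ) ∧
      dist y (PP δ v) ≤ δ := by
  by_cases hi : v ∈ inn p S
  · have h1 : v ∈ Lk h S (st p S) κ ∪ Rk h S (st p S) κ := by
      by_contra hc
      exact hv ⟨hi, hc⟩
    have key : ∀ j ≤ κ, ∀ w, (w = (ru p S h j).1 ∨ w = (ru p S h j).2) →
        ∃ y, y ∉ toC '' interior (region δ S) \ pl δ (ru p S h) '' Icc 0 (κ : ℝ) ∧
          dist y (PP δ w) ≤ δ := by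
      intro j hj w hw
      refine ⟨mid δ (ru p S h j).1 (ru p S h j).2, fun hy => hy.2 ⟨j, ⟨Nat.cast_nonneg _,
        by exact_mod_cast hj⟩, pl_nat _ j⟩, ?_⟩
      have ha := ru_adj hp hS h j
      have hm : NN hδ (mid δ (ru p S h j).1 (ru p S h j).2) ∈ ct (fa (ru p S h j)) := by
        rw [NN_mid']
        exact ms_mem_fa ha
      rcases hw with rfl | rfl
      · exact dist_face hδ hm (NN_fst hδ ha)
      · exact dist_face hδ hm (NN_snd hδ ha)
    rcases h1 with ⟨j, hj, rfl⟩ | ⟨j, hj, rfl⟩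
    · exact key j hj _ (Or.inl rfl)
    · exact key j hj _ (Or.inr rfl)
  · refine ⟨PP δ v, fun hy => hi ((PP_inn hδ hp hS v).1 hy.1), ?_⟩
    rw [dist_self]
    exact hδ.le

/-- A point off the slit domain is close to a vertex which is not free. -/
theorem exists_near (hδ : 0 < δ) (hp : IsPolygon p) (hS : Encloses p S) (h : ℤ × ℤ → ℤ) {κ : ℕ}
    {y : ℂ} (hy : y ∉ toC '' interior (region δ S) \ pl δ (ru p S h) '' Icc 0 (κ : ℝ)) :
    ∃ v, v ∉ Fk (inn p S) h S (st p S) κ ∧ dist y (PP δ v) ≤ δ := by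
  by_cases hi : y ∈ toC '' interior (region δ S)
  · have h1 : y ∈ pl δ (ru p S h) '' Icc 0 (κ : ℝ) := by
      by_contra hc
      exact hy ⟨hi, hc⟩
    obtain ⟨t, ht, rfl⟩ := h1
    have hj : ⌊t⌋₊ ≤ κ := by
      have := Nat.floor_le_floor ht.2
      rwa [Nat.floor_natCast] at this
    refine ⟨(ru p S h ⌊t⌋₊).1, fun hc => hc.2 (Or.inl ⟨_, hj, rfl⟩), ?_⟩
    have ha := ru_adj hp hS h ⌊t⌋₊
    refine dist_face hδ ?_ (NN_fst hδ ha)
    rw [pl, NN_comb, NN_mid', NN_mid']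
    have f1 := Nat.floor_le ht.1
    have f2 := Nat.lt_floor_add_one t
    refine convex_ct _ (ms_mem_fa ha) ?_ (by linarith) (by linarith) (by ring)
    by_cases hf : fa (ru p S h ⌊t⌋₊) ∈ S
    · have e : ru p S h (⌊t⌋₊ + 1) = INTF.nx h (ru p S h ⌊t⌋₊) := INTF.run_succ hf
      rw [e, ← INTF.fb_nx (h := h) ha]
      exact ms_mem_fb (INTF.nx_adj ha)
    · have e : ru p S h (⌊t⌋₊ + 1) = ru p S h ⌊t⌋₊ := INTF.run_stop hf _ (by omega)
      rw [e]
      exact ms_mem_fa ha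
  · have h1 : NN hδ y ∉ DD (S : Set Tri) := by
      intro hc
      apply hi
      have : y ∈ DC δ S := by
        rw [DC_eq hδ]
        exact hc
      exact this
    simp only [DD, mem_setOf_eq, not_forall] at h1
    obtain ⟨t, ht, hts⟩ := h1
    obtain ⟨v, k, rfl⟩ := exists_ta t
    refine ⟨v, fun hc => hts ?_, ?_⟩
    · exact faces_inn hS hc.1 (cor_ta v k).1
    · refine dist_face hδ ht ?_
      rw [NN_PP]
      exact rp_mem v k

end Main

end Vale.Agent.P153.R2.POLY
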