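import Vale.Agent.P153.R2.POLY.Geo

/-!
# P153, block POLY, part 3: the interpolation is affine on the triangles

`ff h z`: the interpolation of `h` in lattice coordinates; `fx v k`, `fy v k`: the coordinates of
the frame at the vertex `v` with the axes in the directions `k` and `k + 1`.
-/

set_option linter.all false

namespace Vale.Agent.P153.R2.POLY

open Vale.Agent.P153.R2.Final Set Filter Topology

/-- The interpolation in lattice coordinates. -/
noncomputable def ff (h : ℤ × ℤ → ℤ) (z : ℝ × ℝ) : ℝ :=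
  ∑ᶠ v : ℤ × ℤ, (h v : ℝ) * hat (z.1 - v.1) (z.2 - v.2)

theorem hat_zero {s t : ℝ} (h : 1 ≤ |s| ∨ 1 ≤ |t| ∨ 1 ≤ |s + t|) : hat s t = 0 := by
  unfold hat
  apply max_eq_left
  have : 1 ≤ max |s| (max |t| |s + t|) := by
    rcases h with h | h | h
    · exact h.trans (le_max_left _ _)
    · exact h.trans ((le_max_left _ _).trans (le_max_right _ _))
    · exact h.trans ((le_max_right _ _).trans (le_max_right _ _))
  linarith

theorem hat_eq {s t m : ℝ} (h1 : |s| ≤ m) (h2 : |t| ≤ m) (h3 : |s + t| ≤ m)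
    (h4 : |s| = m ∨ |t| = m ∨ |s + t| = m) (h5 : m ≤ 1) : hat s t = 1 - m := by
  unfold hat
  have : max |s| (max |t| |s + t|) = m := by
    apply le_antisymm
    · exact max_le h1 (max_le h2 h3)
    · rcases h4 with h | h | h
      · rw [← h]; exact le_max_left _ _
      · rw [← h]; exact (le_max_left _ _).trans (le_max_right _ _)
      · rw [← h]; exact (le_max_right _ _).trans (le_max_right _ _)
  rw [this]
  exact max_eq_right (by linarith)

/-- The interpolation on the triangle `(v, false)`. -/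
theorem ff_false (h : ℤ × ℤ → ℤ) (v : ℤ × ℤ) {z : ℝ × ℝ} (hz : z ∈ ct (v, false)) :
    ff h z = h v * (1 - (z.1 - v.1) - (z.2 - v.2)) + h (v + (1, 0)) * (z.1 - v.1) +
      h (v + (0, 1)) * (z.2 - v.2) := by
  classical
  obtain ⟨a, b⟩ := v
  obtain ⟨x, y⟩ := z
  rw [mem_ct] at hz
  simp only [la, lb, if_false, Bool.false_eq_true] at hz
  obtain ⟨h1, h2, h3⟩ := hz
  have hsupp : (Function.support fun w : ℤ × ℤ => (h w : ℝ) * hat (x - w.1) (y - w.2)) ⊆
      (({(a, b), (a + 1, b), (a, b + 1)} : Finset (ℤ × ℤ)) : Set (ℤ × ℤ)) := by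
    rintro ⟨c, d⟩ hw
    by_contra hcon
    apply hw
    simp only
    rw [hat_zero, mul_zero]
    simp only [Finset.coe_insert, Finset.coe_singleton, Set.mem_insert_iff, Prod.mk.injEq,
      Set.mem_singleton_iff, not_or, not_and] at hcon
    obtain ⟨c1, c2, c3⟩ := hcon
    have hc : c ≤ a - 1 ∨ c = a ∨ c = a + 1 ∨ a + 2 ≤ c := by omega
    have hd : d ≤ b - 1 ∨ d = b ∨ d = b + 1 ∨ b + 2 ≤ d := by omega
    rcases hc with hc | rfl | rfl | hc
    · left
      have : (c : ℝ) ≤ a - 1 := by exact_mod_cast hc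
      exact le_trans (by linarith) (le_abs_self _)
    · rcases hd with hd | rfl | rfl | hd
      · right; left
        have : (d : ℝ) ≤ b - 1 := by exact_mod_cast hd
        exact le_trans (by linarith) (le_abs_self _)
      · exact absurd rfl (c1 rfl)
      · exact absurd rfl (c3 rfl)
      · right; left
        have : (b : ℝ) + 2 ≤ d := by exact_mod_cast hd
        exact le_trans (by linarith) (neg_le_abs _)
    · rcases hd with hd | rfl | rfl | hd
      · right; left
        have : (d : ℝ) ≤ b - 1 := by exact_mod_cast hd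
        exact le_trans (by linarith) (le_abs_self _)
      · exact absurd rfl (c2 rfl)
      · right; right
        push_cast
        exact le_trans (by linarith) (neg_le_abs _)
      · right; left
        have : (b : ℝ) + 2 ≤ d := by exact_mod_cast hd
        exact le_trans (by linarith) (neg_le_abs _)
    · left
      have : (a : ℝ) + 2 ≤ c := by exact_mod_cast hc
      exact le_trans (by linarith) (neg_le_abs _)
  have e0 : hat (x - a) (y - b) = 1 - (x - a) - (y - b) := by
    rw [hat_eq (m := (x - a) + (y - b)) (by rw [abs_of_nonneg h1]; linarith)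
      (by rw [abs_of_nonneg h2]; linarith) (by rw [abs_of_nonneg (by linarith)])
      (Or.inr (Or.inr (abs_of_nonneg (by linarith)))) h3]
    ring
  have e1 : hat (x - (a + 1)) (y - b) = x - a := by
    rw [hat_eq (m := 1 - (x - a)) (by rw [abs_of_nonpos (by linarith)]; linarith)
      (by rw [abs_of_nonneg h2]; linarith) (by rw [abs_of_nonpos (by linarith)]; linarith)
      (Or.inl (by rw [abs_of_nonpos (by linarith)]; ring)) (by linarith)]
    ring
  have e2 : hat (x - a) (y - (b + 1)) = y - b := by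
    rw [hat_eq (m := 1 - (y - b)) (by rw [abs_of_nonneg h1]; linarith)
      (by rw [abs_of_nonpos (by linarith)]; linarith) (by rw [abs_of_nonpos (by linarith)]; linarith)
      (Or.inr (Or.inl (by rw [abs_of_nonpos (by linarith)]; ring))) (by linarith)]
    ring
  unfold ff
  rw [finsum_eq_sum_of_support_subset _ hsupp, Finset.sum_insert (by simp),
    Finset.sum_insert (by simp), Finset.sum_singleton]
  push_cast
  rw [e0, e1, e2]
  simp only [Prod.mk_add_mk, add_zero]
  ring

/-- The interpolation on the triangle `(v, true)`. -/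
theorem ff_true (h : ℤ × ℤ → ℤ) (v : ℤ × ℤ) {z : ℝ × ℝ} (hz : z ∈ ct (v, true)) :
    ff h z = h (v + (1, 1)) * (1 - (v.1 + 1 - z.1) - (v.2 + 1 - z.2)) +
      h (v + (0, 1)) * (v.1 + 1 - z.1) + h (v + (1, 0)) * (v.2 + 1 - z.2) := by
  classical
  obtain ⟨a, b⟩ := v
  obtain ⟨x, y⟩ := z
  rw [mem_ct] at hz
  simp only [la, lb, if_true] at hz
  obtain ⟨h1, h2, h3⟩ := hz
  have hsupp : (Function.support fun w : ℤ × ℤ => (h w : ℝ) * hat (x - w.1) (y - w.2)) ⊆
      (({(a + 1, b + 1), (a, b + 1), (a + 1, b)} : Finset (ℤ × ℤ)) : Set (ℤ × ℤ)) := by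
    rintro ⟨c, d⟩ hw
    by_contra hcon
    apply hw
    simp only
    rw [hat_zero, mul_zero]
    simp only [Finset.coe_insert, Finset.coe_singleton, Set.mem_insert_iff, Prod.mk.injEq,
      Set.mem_singleton_iff, not_or, not_and] at hcon
    obtain ⟨c1, c2, c3⟩ := hcon
    have hc : c ≤ a - 1 ∨ c = a ∨ c = a + 1 ∨ a + 2 ≤ c := by omega
    have hd : d ≤ b - 1 ∨ d = b ∨ d = b + 1 ∨ b + 2 ≤ d := by omega
    rcases hc with hc | rfl | rfl | hc
    · left
      have : (c : ℝ) ≤ a - 1 := by exact_mod_cast hc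
      exact le_trans (by linarith) (le_abs_self _)
    · rcases hd with hd | rfl | rfl | hd
      · right; left
        have : (d : ℝ) ≤ b - 1 := by exact_mod_cast hd
        exact le_trans (by linarith) (le_abs_self _)
      · right; right
        exact le_trans (by linarith) (le_abs_self _)
      · exact absurd rfl (c2 rfl)
      · right; left
        have : (b : ℝ) + 2 ≤ d := by exact_mod_cast hd
        exact le_trans (by linarith) (neg_le_abs _)
    · rcases hd with hd | rfl | rfl | hd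
      · right; left
        have : (d : ℝ) ≤ b - 1 := by exact_mod_cast hd
        exact le_trans (by linarith) (le_abs_self _)
      · exact absurd rfl (c3 rfl)
      · exact absurd rfl (c1 rfl)
      · right; left
        have : (b : ℝ) + 2 ≤ d := by exact_mod_cast hd
        exact le_trans (by linarith) (neg_le_abs _)
    · left
      have : (a : ℝ) + 2 ≤ c := by exact_mod_cast hc
      exact le_trans (by linarith) (neg_le_abs _)
  have e0 : hat (x - (a + 1)) (y - (b + 1)) = 1 - (a + 1 - x) - (b + 1 - y) := by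
    rw [hat_eq (m := (a + 1 - x) + (b + 1 - y)) (by rw [abs_of_nonpos (by linarith)]; linarith)
      (by rw [abs_of_nonpos (by linarith)]; linarith)
      (by rw [abs_of_nonpos (by linarith)]; linarith)
      (Or.inr (Or.inr (by rw [abs_of_nonpos (by linarith)]; ring))) h3]
    ring
  have e1 : hat (x - a) (y - (b + 1)) = a + 1 - x := by
    rw [hat_eq (m := 1 - (a + 1 - x)) (by rw [abs_of_nonneg (by linarith)]; linarith)
      (by rw [abs_of_nonpos (by linarith)]; linarith)
      (by rw [abs_of_nonneg (by linarith)]; linarith)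
      (Or.inl (by rw [abs_of_nonneg (by linarith)]; ring)) (by linarith)]
    ring
  have e2 : hat (x - (a + 1)) (y - b) = b + 1 - y := by
    rw [hat_eq (m := 1 - (b + 1 - y)) (by rw [abs_of_nonpos (by linarith)]; linarith)
      (by rw [abs_of_nonneg (by linarith)]; linarith)
      (by rw [abs_of_nonneg (by linarith)]; linarith)
      (Or.inr (Or.inl (by rw [abs_of_nonneg (by linarith)]; ring))) (by linarith)]
    ring
  unfold ff
  rw [finsum_eq_sum_of_support_subset _ hsupp, Finset.sum_insert (by simp),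
    Finset.sum_insert (by simp), Finset.sum_singleton]
  push_cast
  rw [e0, e1, e2]
  simp only [Prod.mk_add_mk, add_zero]
  ring

/-! ### Frames -/

/-- The next direction. -/
def nx : Fin 6 → Fin 6 := ![1, 2, 3, 4, 5, 0]

/-- The previous direction. -/
def pr : Fin 6 → Fin 6 := ![5, 0, 1, 2, 3, 4]

/-- The first coordinate of the frame. -/
noncomputable def fx (v : ℤ × ℤ) (k : Fin 6) (z : ℝ × ℝ) : ℝ :=
  ![z.1 - v.1, (z.1 - v.1) + (z.2 - v.2), z.2 - v.2, -(z.1 - v.1), -(z.1 - v.1) - (z.2 - v.2),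
    -(z.2 - v.2)] k

/-- The second coordinate of the frame. -/
noncomputable def fy (v : ℤ × ℤ) (k : Fin 6) (z : ℝ × ℝ) : ℝ :=
  ![z.2 - v.2, -(z.1 - v.1), -(z.1 - v.1) - (z.2 - v.2), -(z.2 - v.2), z.1 - v.1,
    (z.1 - v.1) + (z.2 - v.2)] k

theorem fx_cont (v : ℤ × ℤ) (k : Fin 6) : Continuous (fx v k) := by
  unfold fx
  fin_cases k <;> simp <;> fun_prop

theorem fy_cont (v : ℤ × ℤ) (k : Fin 6) : Continuous (fy v k) := by
  unfold fy
  fin_cases k <;> simp <;> fun_prop

/-- The frame determines the point. -/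
theorem frame_ext {v : ℤ × ℤ} {k : Fin 6} {z w : ℝ × ℝ} (h1 : fx v k z = fx v k w)
    (h2 : fy v k z = fy v k w) : z = w := by
  obtain ⟨a, b⟩ := z
  obtain ⟨c, d⟩ := w
  fin_cases k <;> simp [fx, fy] at h1 h2 <;> simp only [Prod.mk.injEq] <;>
    constructor <;> linarith

theorem mem_ct_ta {v : ℤ × ℤ} {k : Fin 6} {z : ℝ × ℝ} :
    z ∈ ct (ta v k) ↔ 0 ≤ fx v k z ∧ 0 ≤ fy v k z ∧ fx v k z + fy v k z ≤ 1 := by
  obtain ⟨a, b⟩ := v
  obtain ⟨x, y⟩ := z
  rw [mem_ct]
  fin_cases k <;> constructor <;> rintro ⟨h1, h2, h3⟩ <;>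
    simp [fx, fy, ta, la, lb] at h1 h2 h3 ⊢ <;> (try constructorm* _ ∧ _) <;> linarith

theorem mem_ct_tb {v : ℤ × ℤ} {k : Fin 6} {z : ℝ × ℝ} :
    z ∈ ct (tb v k) ↔ fy v k z ≤ 0 ∧ 0 ≤ fx v k z + fy v k z ∧ fx v k z ≤ 1 := by
  obtain ⟨a, b⟩ := v
  obtain ⟨x, y⟩ := z
  rw [mem_ct]
  fin_cases k <;> constructor <;> rintro ⟨h1, h2, h3⟩ <;>
    simp [fx, fy, tb, la, lb] at h1 h2 h3 ⊢ <;> (try constructorm* _ ∧ _) <;> linarith

theorem mem_ot_ta {v : ℤ × ℤ} {k : Fin 6} {z : ℝ × ℝ} :
    z ∈ ot (ta v k) ↔ 0 < fx v k z ∧ 0 < fy v k z ∧ fx v k z + fy v k z < 1 := by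
  obtain ⟨a, b⟩ := v
  obtain ⟨x, y⟩ := z
  rw [mem_ot]
  fin_cases k <;> constructor <;> rintro ⟨h1, h2, h3⟩ <;>
    simp [fx, fy, ta, la, lb] at h1 h2 h3 ⊢ <;> (try constructorm* _ ∧ _) <;> linarith

/-- The interpolation in the frame, on `ta v k`. -/
theorem ff_ta (h : ℤ × ℤ → ℤ) {v : ℤ × ℤ} {k : Fin 6} {z : ℝ × ℝ} (hz : z ∈ ct (ta v k)) :
    ff h z = h v * (1 - fx v k z - fy v k z) + h (v + dir k) * fx v k z +
      h (v + dir (nx k)) * fy v k z := by
  obtain ⟨a, b⟩ := v
  obtain ⟨x, y⟩ := z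
  fin_cases k
  · rw [ff_false h _ hz]
    simp [fx, fy, dir, nx]
  · rw [ff_true h _ hz]
    simp [fx, fy, dir, nx]
    ring_nf
  · rw [ff_false h _ hz]
    simp [fx, fy, dir, nx]
    ring_nf
  · rw [ff_true h _ hz]
    simp [fx, fy, dir, nx]
    ring_nf
  · rw [ff_false h _ hz]
    simp [fx, fy, dir, nx]
    ring_nf
  · rw [ff_true h _ hz]
    simp [fx, fy, dir, nx]
    ring_nf

/-- The interpolation in the frame, on `tb v k`. -/
theorem ff_tb (h : ℤ × ℤ → ℤ) {v : ℤ × ℤ} {k : Fin 6} {z : ℝ × ℝ} (hz : z ∈ ct (tb v k)) :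
    ff h z = h v * (1 - fx v k z) + h (v + dir k) * (fx v k z + fy v k z) +
      h (v + dir (pr k)) * (-fy v k z) := by
  obtain ⟨a, b⟩ := v
  obtain ⟨x, y⟩ := z
  fin_cases k
  · rw [ff_true h _ hz]
    simp [fx, fy, dir, pr]
    ring_nf
  · rw [ff_false h _ hz]
    simp [fx, fy, dir, pr]
    ring_nf
  · rw [ff_true h _ hz]
    simp [fx, fy, dir, pr]
    ring_nf
  · rw [ff_false h _ hz]
    simp [fx, fy, dir, pr]
    ring_nf
  · rw [ff_true h _ hz]
    simp [fx, fy, dir, pr]
    ring_nf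
  · rw [ff_false h _ hz]
    simp [fx, fy, dir, pr]
    ring_nf

end Vale.Agent.P153.R2.POLY
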