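import Vale.Agent.P153.R2.Final.Defs

/-!
# P153, block POLY, part 1: the triangles inside and outside a lattice polygon

`two_sides`: a `ZMod 2`-valued function of the triangles which takes the same value on neighbouring
triangles which are not separated by an edge of the polygon `p` is constant on the set `S` of the
enclosed triangles and on its complement.
-/

set_option linter.all false

namespace Vale.Agent.P153.R2.POLY

open Vale.Agent.P153.R2.Final

/-- The six directions. -/
def dir : Fin 6 → ℤ × ℤ := ![(1, 0), (0, 1), (-1, 1), (-1, 0), (0, -1), (1, -1)]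

/-- The six triangles around the vertex `v`: `ta v k` is between the directions `k` and `k + 1`. -/
def ta (v : ℤ × ℤ) : Fin 6 → Tri :=
  ![(v, false), (v - (1, 0), true), (v - (1, 0), false), (v - (1, 1), true), (v - (0, 1), false),
    (v - (0, 1), true)]

/-- `tb v k` is between the directions `k - 1` and `k`. -/
def tb (v : ℤ × ℤ) : Fin 6 → Tri :=
  ![(v - (0, 1), true), (v, false), (v - (1, 0), true), (v - (1, 0), false), (v - (1, 1), true),
    (v - (0, 1), false)]

/-- The coboundary of `χ` at the edge from `v` in the direction `k`. -/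
def dd (χ : Tri → ZMod 2) (v : ℤ × ℤ) (k : Fin 6) : ZMod 2 := χ (tb v k) + χ (ta v k)

theorem z2 (a : ZMod 2) : a + a = 0 := by revert a; decide

theorem z2_cases (a : ZMod 2) : a = 0 ∨ a = 1 := by revert a; decide

theorem z2_eq {a b : ZMod 2} (h : a + b = 0) : a = b := by revert a b; decide

/-- The sum of the coboundary around a vertex vanishes. -/
theorem sum_dd (χ : Tri → ZMod 2) (v : ℤ × ℤ) : ∑ k, dd χ v k = 0 := by
  rw [Fin.sum_univ_six]
  have h0 := z2 (χ (v, false))
  have h1 := z2 (χ (v - (1, 0), true))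
  have h2 := z2 (χ (v - (1, 0), false))
  have h3 := z2 (χ (v - (1, 1), true))
  have h4 := z2 (χ (v - (0, 1), false))
  have h5 := z2 (χ (v - (0, 1), true))
  show (χ (v - (0, 1), true) + χ (v, false)) + (χ (v, false) + χ (v - (1, 0), true)) +
    (χ (v - (1, 0), true) + χ (v - (1, 0), false)) +
    (χ (v - (1, 0), false) + χ (v - (1, 1), true)) +
    (χ (v - (1, 1), true) + χ (v - (0, 1), false)) +
    (χ (v - (0, 1), false) + χ (v - (0, 1), true)) = 0
  linear_combination h0 + h1 + h2 + h3 + h4 + h5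

/-- The opposite direction. -/
def opp : Fin 6 → Fin 6 := ![3, 4, 5, 0, 1, 2]

theorem opp_opp (k : Fin 6) : opp (opp k) = k := by revert k; decide

theorem dir_opp (k : Fin 6) : dir (opp k) = -dir k := by
  fin_cases k <;> rfl

/-- The sides of the edge do not depend on the orientation of the edge. -/
theorem ta_flip (v : ℤ × ℤ) (k : Fin 6) : ta (v + dir k) (opp k) = tb v k := by
  obtain ⟨a, b⟩ := v
  fin_cases k <;> simp [ta, tb, dir, opp, Prod.ext_iff] <;> omega

theorem tb_flip (v : ℤ × ℤ) (k : Fin 6) : tb (v + dir k) (opp k) = ta v k := by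
  obtain ⟨a, b⟩ := v
  fin_cases k <;> simp [ta, tb, dir, opp, Prod.ext_iff] <;> omega

theorem dd_flip (χ : Tri → ZMod 2) (v : ℤ × ℤ) (k : Fin 6) :
    dd χ (v + dir k) (opp k) = dd χ v k := by
  rw [dd, dd, ta_flip, tb_flip, add_comm]

theorem adj_iff_dir {v w : ℤ × ℤ} : Adj v w ↔ ∃ k, w = v + dir k := by
  have key : Adj v w ↔ (w.1 - v.1) ^ 2 + (w.1 - v.1) * (w.2 - v.2) + (w.2 - v.2) ^ 2 = 1 := by
    unfold Adj len
    rw [Real.sqrt_eq_one]
    simp only [Prod.fst_sub, Prod.snd_sub]
    norm_cast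
  rw [key]
  obtain ⟨a, b⟩ := v
  obtain ⟨c, d⟩ := w
  simp only
  constructor
  · intro h
    have h1 : (2 * (c - a) + (d - b)) ^ 2 + 3 * (d - b) ^ 2 = 4 := by linear_combination 4 * h
    have h2 : (2 * (d - b) + (c - a)) ^ 2 + 3 * (c - a) ^ 2 = 4 := by linear_combination 4 * h
    have h3 : -1 ≤ d - b ∧ d - b ≤ 1 := by
      constructor <;> nlinarith [sq_nonneg (2 * (c - a) + (d - b))]
    have h4 : -1 ≤ c - a ∧ c - a ≤ 1 := by
      constructor <;> nlinarith [sq_nonneg (2 * (d - b) + (c - a))]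
    obtain ⟨x, hx⟩ : ∃ x, x = c - a := ⟨_, rfl⟩
    obtain ⟨y, hy⟩ : ∃ y, y = d - b := ⟨_, rfl⟩
    rw [← hx, ← hy] at h
    rw [← hx] at h4
    rw [← hy] at h3
    have hx3 : x = -1 ∨ x = 0 ∨ x = 1 := by omega
    have hy3 : y = -1 ∨ y = 0 ∨ y = 1 := by omega
    rcases hx3 with rfl | rfl | rfl <;> rcases hy3 with rfl | rfl | rfl <;> norm_num at h
    · exact ⟨3, by simp [dir]; omega⟩
    · exact ⟨2, by simp [dir]; omega⟩
    · exact ⟨4, by simp [dir]; omega⟩
    · exact ⟨1, by simp [dir]; omega⟩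
    · exact ⟨5, by simp [dir]; omega⟩
    · exact ⟨0, by simp [dir]; omega⟩
  · rintro ⟨k, hk⟩
    rw [Prod.ext_iff] at hk
    simp only [Prod.fst_add, Prod.snd_add] at hk
    obtain ⟨rfl, rfl⟩ := hk
    fin_cases k <;> simp [dir]

theorem dir_inj : Function.Injective dir := by decide

section Poly

variable {n : ℕ} {p : ZMod n → ℤ × ℤ} {S : Finset Tri}

theorem isEdge_symm {a b : ℤ × ℤ} (h : IsEdge p a b) : IsEdge p b a := by
  obtain ⟨i, h⟩ := h
  exact ⟨i, h.symm⟩

/-- The sides of an edge in all the directions. -/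
theorem side_dir (hS : Encloses p S) (v : ℤ × ℤ) (k : Fin 6) :
    IsEdge p v (v + dir k) ↔ ¬ (tb v k ∈ S ↔ ta v k ∈ S) := by
  have pos : ∀ (v : ℤ × ℤ) (k : Fin 6), k = 0 ∨ k = 1 ∨ k = 2 →
      (IsEdge p v (v + dir k) ↔ ¬ (tb v k ∈ S ↔ ta v k ∈ S)) := by
    rintro v k (rfl | rfl | rfl)
    · rw [show (tb v 0 ∈ S ↔ ta v 0 ∈ S) ↔ (ta v 0 ∈ S ↔ tb v 0 ∈ S) from Iff.comm]
      exact (hS v).1
    · exact (hS v).2.1
    · have h := (hS (v - (1, 0))).2.2
      rw [sub_add_cancel] at h
      have e : v - (1, 0) + (0, 1) = v + dir 2 := by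
        obtain ⟨a, b⟩ := v
        simp [dir, Prod.ext_iff]
        omega
      rw [e] at h
      rw [show (tb v 2 ∈ S ↔ ta v 2 ∈ S) ↔ (ta v 2 ∈ S ↔ tb v 2 ∈ S) from Iff.comm]
      exact h
  have neg : ∀ (v : ℤ × ℤ) (k : Fin 6), k = 0 ∨ k = 1 ∨ k = 2 →
      (IsEdge p v (v + dir (opp k)) ↔ ¬ (tb v (opp k) ∈ S ↔ ta v (opp k) ∈ S)) := by
    intro v k hk
    have h := pos (v + dir (opp k)) k hk
    have e1 : v + dir (opp k) + dir k = v := by rw [dir_opp]; abel
    have e2 : opp (opp k) = k := opp_opp k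
    have e3 := ta_flip v (opp k)
    have e4 := tb_flip v (opp k)
    rw [e2] at e3 e4
    rw [e1, e3, e4] at h
    constructor
    · intro h'
      have := h.1 (isEdge_symm h')
      tauto
    · intro h'
      exact isEdge_symm (h.2 (by tauto))
  fin_cases k
  · exact pos v 0 (by simp)
  · exact pos v 1 (by simp)
  · exact pos v 2 (by simp)
  · exact neg v 0 (by simp)
  · exact neg v 1 (by simp)
  · exact neg v 2 (by simp)

/-- The polygon edges at a vertex of the polygon. -/
theorem edge_at (hp : IsPolygon p) {i : ZMod n} {b : ℤ × ℤ} :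
    IsEdge p (p i) b ↔ b = p (i + 1) ∨ b = p (i - 1) := by
  constructor
  · rintro ⟨j, ⟨h1, h2⟩ | ⟨h1, h2⟩⟩
    · rw [hp.2.1 h1] at h2
      exact Or.inl h2.symm
    · have := hp.2.1 h2
      right
      rw [← h1, ← this, add_sub_cancel_right]
  · rintro (rfl | rfl)
    · exact ⟨i, Or.inl ⟨rfl, rfl⟩⟩
    · exact ⟨i - 1, Or.inr ⟨rfl, by rw [sub_add_cancel]⟩⟩

theorem two_ne (hp : IsPolygon p) (i : ZMod n) : p (i + 1) ≠ p (i - 1) := by
  intro h
  have h1 := hp.2.1 h
  have h2 : ((2 : ℕ) : ZMod n) = 0 := by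
    push_cast
    linear_combination h1
  rw [ZMod.natCast_eq_zero_iff] at h2
  have := Nat.le_of_dvd (by norm_num) h2
  have := hp.1
  omega

/-- The coboundary across non-edges vanishes. -/
def Flat (p : ZMod n → ℤ × ℤ) (χ : Tri → ZMod 2) : Prop :=
  ∀ v k, ¬ IsEdge p v (v + dir k) → dd χ v k = 0

/-- The coboundary is constant along the polygon. -/
theorem flat_step (hp : IsPolygon p) {χ : Tri → ZMod 2} (h : Flat p χ) {i : ZMod n}
    {k l : Fin 6} (hk : p (i + 1) = p i + dir k) (hl : p (i - 1) = p i + dir l) :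
    dd χ (p i) k = dd χ (p i) l := by
  have hkl : k ≠ l := by
    rintro rfl
    exact two_ne hp i (hk.trans hl.symm)
  have hsum := sum_dd χ (p i)
  have h0 : ∀ m ∈ (Finset.univ : Finset (Fin 6)), m ≠ k ∧ m ≠ l → dd χ (p i) m = 0 := by
    rintro m - ⟨h1, h2⟩
    refine h _ _ fun he => ?_
    rcases (edge_at hp).1 he with h3 | h3
    · rw [hk] at h3
      exact h1 (dir_inj (add_left_cancel h3))
    · rw [hl] at h3
      exact h2 (dir_inj (add_left_cancel h3))
  rw [Finset.sum_eq_add k l hkl h0 (by simp) (by simp)] at hsum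
  exact z2_eq hsum

/-- The direction of the edge number `i` of the polygon. -/
theorem exists_dir (hp : IsPolygon p) (i : ZMod n) : ∃ k, p (i + 1) = p i + dir k :=
  adj_iff_dir.1 (hp.2.2 i)

theorem flat_const (hp : IsPolygon p) {χ : Tri → ZMod 2} (h : Flat p χ) :
    ∃ c : ZMod 2, ∀ v k, IsEdge p v (v + dir k) → dd χ v k = c := by
  have hn : 0 < n := by have := hp.1; omega
  have : NeZero n := ⟨hn.ne'⟩
  choose d hd using exists_dir hp
  have step : ∀ i, dd χ (p (i + 1)) (d (i + 1)) = dd χ (p i) (d i) := by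
    intro i
    have e : p (i + 1 - 1) = p (i + 1) + dir (opp (d i)) := by
      rw [add_sub_cancel_right, hd i, dir_opp]
      abel
    rw [flat_step hp h (hd (i + 1)) e, hd i, dd_flip]
  have all : ∀ j : ℕ, dd χ (p (j : ZMod n)) (d (j : ZMod n)) = dd χ (p 0) (d 0) := by
    intro j
    induction j with
    | zero => simp
    | succ j ih =>
      have := step (j : ZMod n)
      rw [← ih, ← this]
      push_cast
      rfl
  have all' : ∀ i, dd χ (p i) (d i) = dd χ (p 0) (d 0) := by
    intro i
    have := all i.val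
    rwa [ZMod.natCast_zmod_val] at this
  refine ⟨dd χ (p 0) (d 0), ?_⟩
  rintro v k ⟨i, ⟨h1, h2⟩ | ⟨h1, h2⟩⟩
  · have : k = d i := by
      apply dir_inj
      have := h2.symm.trans (hd i)
      rw [← h1] at this
      exact add_left_cancel this
    rw [← h1, this, all']
  · have e : k = opp (d i) := by
      apply dir_inj
      rw [dir_opp]
      have e2 := hd i
      rw [h1, h2] at e2
      have : v + dir k + dir (d i) = v := e2.symm
      have h3 : dir k + dir (d i) = 0 := by
        rw [add_assoc] at this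
        exact add_eq_left.1 this
      exact eq_neg_of_add_eq_zero_left h3
    rw [e, ← h2, hd i, dd_flip, all']

/-- A function with vanishing coboundary is constant. -/
theorem const_of_dd {χ : Tri → ZMod 2} (h : ∀ v k, dd χ v k = 0) (s t : Tri) : χ s = χ t := by
  have hv : ∀ v, χ (v - (0, 1), true) = χ (v, false) := fun v => z2_eq (h v 0)
  have hh : ∀ v, χ (v, false) = χ (v - (1, 0), true) := fun v => z2_eq (h v 1)
  have hd : ∀ v : ℤ × ℤ, χ (v, true) = χ (v, false) := by
    intro v
    have := z2_eq (h (v + (1, 0)) 2)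
    have e : v + (1, 0) - (1, 0) = v := add_sub_cancel_right v _
    change χ (v + (1, 0) - (1, 0), true) = χ (v + (1, 0) - (1, 0), false) at this
    rwa [e] at this
  have h1 : ∀ v : ℤ × ℤ, χ (v - (0, 1), false) = χ (v, false) := fun v => by
    rw [← hd, hv]
  have h2 : ∀ v : ℤ × ℤ, χ (v - (1, 0), false) = χ (v, false) := fun v => by
    rw [← hd, ← hh]
  have key : ∀ a b : ℤ, χ ((a, b), false) = χ ((0, 0), false) := by
    have ha : ∀ a b : ℤ, χ ((a, b), false) = χ ((0, b), false) := by
      intro a b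
      induction a using Int.induction_on with
      | zero => rfl
      | succ i ih =>
        rw [← ih, ← h2 ((i : ℤ) + 1, b)]
        simp
      | pred i ih =>
        rw [← ih, ← h2 (-(i : ℤ), b)]
        simp
    have hb : ∀ b : ℤ, χ ((0, b), false) = χ ((0, 0), false) := by
      intro b
      induction b using Int.induction_on with
      | zero => rfl
      | succ i ih =>
        rw [← ih, ← h1 (0, (i : ℤ) + 1)]
        simp
      | pred i ih =>
        rw [← ih, ← h1 (0, -(i : ℤ))]
        simp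
    intro a b
    rw [ha, hb]
  have all : ∀ t : Tri, χ t = χ ((0, 0), false) := by
    rintro ⟨⟨a, b⟩, c⟩
    cases c
    · exact key a b
    · rw [hd]; exact key a b
  rw [all s, all t]

open Classical in
/-- The indicator function of `S`. -/
noncomputable def chi (S : Finset Tri) (t : Tri) : ZMod 2 := if t ∈ S then 1 else 0

theorem dd_chi (S : Finset Tri) (v : ℤ × ℤ) (k : Fin 6) :
    dd (chi S) v k = if (tb v k ∈ S ↔ ta v k ∈ S) then 0 else 1 := by
  classical
  unfold dd chi
  by_cases h1 : tb v k ∈ S <;> by_cases h2 : ta v k ∈ S <;> simp [h1, h2]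
  exact z2 1

/-- **A function which is flat off the polygon is constant inside and constant outside.** -/
theorem two_sides (hp : IsPolygon p) (hS : Encloses p S) {χ : Tri → ZMod 2} (h : Flat p χ) :
    (∀ s t, s ∈ S → t ∈ S → χ s = χ t) ∧ ∀ s t, s ∉ S → t ∉ S → χ s = χ t := by
  classical
  obtain ⟨c, hc⟩ := flat_const hp h
  rcases z2_cases c with rfl | rfl
  · have h0 : ∀ v k, dd χ v k = 0 := by
      intro v k
      by_cases he : IsEdge p v (v + dir k)
      · exact hc v k he
      · exact h v k he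
    exact ⟨fun s t _ _ => const_of_dd h0 s t, fun s t _ _ => const_of_dd h0 s t⟩
  · set ψ : Tri → ZMod 2 := fun t => χ t + chi S t with hψ
    have h0 : ∀ v k, dd ψ v k = 0 := by
      intro v k
      have e : dd ψ v k = dd χ v k + dd (chi S) v k := by
        simp only [dd, hψ]
        ring
      rw [e, dd_chi]
      by_cases he : IsEdge p v (v + dir k)
      · rw [hc v k he, if_neg ((side_dir hS v k).1 he)]
        exact z2 1
      · rw [h v k he, if_pos (not_not.1 fun h' => he ((side_dir hS v k).2 h')), add_zero]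
    constructor
    · intro s t hs ht
      have := const_of_dd h0 s t
      simp only [hψ, chi, if_pos hs, if_pos ht] at this
      exact add_right_cancel this
    · intro s t hs ht
      have := const_of_dd h0 s t
      simp only [hψ, chi, if_neg hs, if_neg ht] at this
      exact add_right_cancel this

/-- Set version: `T` is closed under passing to a neighbour which is not separated by an edge of the
polygon. -/
theorem two_sides_set (hp : IsPolygon p) (hS : Encloses p S) {T : Set Tri}
    (hT : ∀ v k, ¬ IsEdge p v (v + dir k) → (tb v k ∈ T ↔ ta v k ∈ T)) :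
    (∀ s t, s ∈ S → t ∈ S → (s ∈ T ↔ t ∈ T)) ∧ ∀ s t, s ∉ S → t ∉ S → (s ∈ T ↔ t ∈ T) := by
  classical
  set χ : Tri → ZMod 2 := fun t => if t ∈ T then 1 else 0 with hχ
  have hfl : Flat p χ := by
    intro v k hk
    have := hT v k hk
    simp only [dd, hχ]
    by_cases h1 : ta v k ∈ T
    · rw [if_pos h1, if_pos (this.2 h1)]
      exact z2 1
    · rw [if_neg h1, if_neg (fun h => h1 (this.1 h)), add_zero]
  have hiff : ∀ s t, χ s = χ t → (s ∈ T ↔ t ∈ T) := by
    intro s t h
    simp only [hχ] at h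
    by_cases h1 : s ∈ T <;> by_cases h2 : t ∈ T <;> simp [h1, h2] at h ⊢
  obtain ⟨h1, h2⟩ := two_sides hp hS hfl
  exact ⟨fun s t hs ht => hiff s t (h1 s t hs ht), fun s t hs ht => hiff s t (h2 s t hs ht)⟩

/-- Some triangle is enclosed. -/
theorem enclosed_nonempty (hp : IsPolygon p) (hS : Encloses p S) : S.Nonempty := by
  obtain ⟨k, hk⟩ := exists_dir hp 0
  have he : IsEdge p (p 0) (p 0 + dir k) := by
    rw [← hk]
    exact ⟨0, Or.inl ⟨rfl, rfl⟩⟩
  have := (side_dir hS _ _).1 he
  by_cases h1 : tb (p 0) k ∈ S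
  · exact ⟨_, h1⟩
  · by_cases h2 : ta (p 0) k ∈ S
    · exact ⟨_, h2⟩
    · exact absurd (by tauto) this

end Poly

end Vale.Agent.P153.R2.POLY
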