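import Vale.Agent.P153.R2.POLY.Comb

/-!
# P153, block POLY, part 2: the geometry of the triangles, in lattice coordinates

`ct t`, `ot t`: the closed and the open triangle; `RR T`: the union of the closed triangles of the
set `T`; `DD T`: the points all of whose triangles are in `T` (the interior of `RR T`).
-/

set_option linter.all false

namespace Vale.Agent.P153.R2.POLY

open Vale.Agent.P153.R2.Final Set Filter Topology

/-- First barycentric coordinate. -/
noncomputable def la (t : Tri) (z : ℝ × ℝ) : ℝ := if t.2 then t.1.1 + 1 - z.1 else z.1 - t.1.1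

/-- Second barycentric coordinate. -/
noncomputable def lb (t : Tri) (z : ℝ × ℝ) : ℝ := if t.2 then t.1.2 + 1 - z.2 else z.2 - t.1.2

/-- The closed triangle. -/
def ct (t : Tri) : Set (ℝ × ℝ) := {z | 0 ≤ la t z ∧ 0 ≤ lb t z ∧ la t z + lb t z ≤ 1}

/-- The open triangle. -/
def ot (t : Tri) : Set (ℝ × ℝ) := {z | 0 < la t z ∧ 0 < lb t z ∧ la t z + lb t z < 1}

theorem mem_ct {t : Tri} {z : ℝ × ℝ} :
    z ∈ ct t ↔ 0 ≤ la t z ∧ 0 ≤ lb t z ∧ la t z + lb t z ≤ 1 := Iff.rfl

theorem mem_ot {t : Tri} {z : ℝ × ℝ} :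
    z ∈ ot t ↔ 0 < la t z ∧ 0 < lb t z ∧ la t z + lb t z < 1 := Iff.rfl

theorem la_comb (t : Tri) (z w : ℝ × ℝ) {a b : ℝ} (h : a + b = 1) :
    la t (a • z + b • w) = a * la t z + b * la t w := by
  unfold la
  split
  · simp only [Prod.fst_add, Prod.smul_fst, smul_eq_mul]
    linear_combination (-(t.1.1 : ℝ) - 1) * h
  · simp only [Prod.fst_add, Prod.smul_fst, smul_eq_mul]
    linear_combination (t.1.1 : ℝ) * h

theorem lb_comb (t : Tri) (z w : ℝ × ℝ) {a b : ℝ} (h : a + b = 1) :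
    lb t (a • z + b • w) = a * lb t z + b * lb t w := by
  unfold lb
  split
  · simp only [Prod.snd_add, Prod.smul_snd, smul_eq_mul]
    linear_combination (-(t.1.2 : ℝ) - 1) * h
  · simp only [Prod.snd_add, Prod.smul_snd, smul_eq_mul]
    linear_combination (t.1.2 : ℝ) * h

theorem la_cont (t : Tri) : Continuous (la t) := by
  unfold la
  split <;> fun_prop

theorem lb_cont (t : Tri) : Continuous (lb t) := by
  unfold lb
  split <;> fun_prop

theorem isClosed_ct (t : Tri) : IsClosed (ct t) :=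
  (isClosed_le continuous_const (la_cont t)).inter ((isClosed_le continuous_const (lb_cont t)).inter
    (isClosed_le ((la_cont t).add (lb_cont t)) continuous_const))

theorem isOpen_ot (t : Tri) : IsOpen (ot t) :=
  (isOpen_lt continuous_const (la_cont t)).inter ((isOpen_lt continuous_const (lb_cont t)).inter
    (isOpen_lt ((la_cont t).add (lb_cont t)) continuous_const))

theorem ot_sub_ct (t : Tri) : ot t ⊆ ct t := fun _ h => ⟨h.1.le, h.2.1.le, h.2.2.le⟩

/-- The half-open segment from a point of the closed triangle to a point of the open triangle. -/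
theorem seg_mem {t : Tri} {z w : ℝ × ℝ} (hz : z ∈ ct t) (hw : w ∈ ot t) {a b : ℝ} (ha : 0 ≤ a)
    (hb : 0 < b) (h : a + b = 1) : a • z + b • w ∈ ot t := by
  obtain ⟨z1, z2, z3⟩ := hz
  obtain ⟨w1, w2, w3⟩ := hw
  rw [mem_ot, la_comb t z w h, lb_comb t z w h]
  refine ⟨by positivity, by positivity, ?_⟩
  nlinarith

theorem convex_ct (t : Tri) : Convex ℝ (ct t) := by
  intro z hz w hw a b ha hb h
  obtain ⟨z1, z2, z3⟩ := hz
  obtain ⟨w1, w2, w3⟩ := hw
  rw [mem_ct, la_comb t z w h, lb_comb t z w h]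
  refine ⟨by positivity, by positivity, ?_⟩
  nlinarith

theorem convex_ot (t : Tri) : Convex ℝ (ot t) := by
  intro z hz w hw a b ha hb h
  rcases hb.eq_or_lt with h0 | h0
  · rw [← h0] at h ⊢
    have : a = 1 := by linarith
    rw [this]
    simpa using hz
  · exact seg_mem (ot_sub_ct t hz) hw ha h0 h

/-- The centre of the triangle. -/
noncomputable def cen (t : Tri) : ℝ × ℝ :=
  if t.2 then (t.1.1 + 2 / 3, t.1.2 + 2 / 3) else (t.1.1 + 1 / 3, t.1.2 + 1 / 3)

theorem cen_mem (t : Tri) : cen t ∈ ot t := by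
  rw [mem_ot]
  unfold la lb cen
  split <;> norm_num

/-- The union of a point of the closed triangle and the open triangle is connected. -/
theorem preconn_insert {t : Tri} {z : ℝ × ℝ} (hz : z ∈ ct t) :
    IsPreconnected (insert z (ot t)) := by
  have : Convex ℝ (insert z (ot t)) := by
    have hstar : ∀ w ∈ ot t, ∀ a b : ℝ, 0 ≤ a → 0 < b → a + b = 1 →
        a • z + b • w ∈ ot t := fun w hw a b ha hb h => seg_mem hz hw ha hb h
    rintro x (rfl | hx) y (rfl | hy) a b ha hb h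
    · left
      rw [← add_smul, h, one_smul]
    · rcases hb.eq_or_lt with h0 | h0
      · left
        rw [← h0] at h ⊢
        rw [add_zero] at h
        rw [h]
        simp
      · right
        exact hstar y hy a b ha h0 h
    · rcases ha.eq_or_lt with h0 | h0
      · left
        rw [← h0] at h ⊢
        rw [zero_add] at h
        rw [h]
        simp
      · right
        rw [add_comm]
        exact hstar x hx b a hb h0 (by linarith)
    · right
      exact convex_ot t hx hy ha hb h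
  exact this.isPreconnected

theorem ct_sub_closure (t : Tri) : ct t ⊆ closure (ot t) := by
  intro z hz
  have h1 := preconn_insert hz
  -- the segment tends to `z`
  have h2 : Tendsto (fun b : ℝ => (1 - b) • z + b • cen t) (𝓝[>] 0) (𝓝 z) := by
    have : Continuous fun b : ℝ => (1 - b) • z + b • cen t := by fun_prop
    have h3 := (this.tendsto 0).mono_left (nhdsWithin_le_nhds (s := Ioi 0))
    simpa using h3
  refine mem_closure_of_tendsto h2 ?_
  filter_upwards [Ioc_mem_nhdsGT (zero_lt_one' ℝ)] with b hb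
  exact seg_mem hz (cen_mem t) (by linarith [hb.2]) hb.1 (by ring)

/-- Every point is in a triangle. -/
theorem exists_ct (z : ℝ × ℝ) : ∃ t, z ∈ ct t := by
  obtain ⟨x, y⟩ := z
  have h1 := Int.floor_le x
  have h2 := Int.lt_floor_add_one x
  have h3 := Int.floor_le y
  have h4 := Int.lt_floor_add_one y
  by_cases h : x + y ≤ ⌊x⌋ + ⌊y⌋ + 1
  · refine ⟨((⌊x⌋, ⌊y⌋), false), ?_⟩
    rw [mem_ct]
    simp only [la, lb, if_false, Bool.false_eq_true]
    refine ⟨by linarith, by linarith, by linarith⟩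
  · refine ⟨((⌊x⌋, ⌊y⌋), true), ?_⟩
    rw [mem_ct]
    simp only [la, lb, if_true]
    push Not at h
    refine ⟨by linarith, by linarith, by linarith⟩

/-- Coordinates of the points of a triangle. -/
theorem ct_bound {t : Tri} {z : ℝ × ℝ} (h : z ∈ ct t) :
    (t.1.1 : ℝ) ≤ z.1 ∧ z.1 ≤ t.1.1 + 1 ∧ (t.1.2 : ℝ) ≤ z.2 ∧ z.2 ≤ t.1.2 + 1 := by
  rw [mem_ct] at h
  unfold la lb at h
  split at h <;> exact ⟨by linarith, by linarith, by linarith, by linarith⟩

theorem ot_bound {t : Tri} {z : ℝ × ℝ} (h : z ∈ ot t) :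
    (t.1.1 : ℝ) < z.1 ∧ z.1 < t.1.1 + 1 ∧ (t.1.2 : ℝ) < z.2 ∧ z.2 < t.1.2 + 1 := by
  rw [mem_ot] at h
  unfold la lb at h
  split at h <;> exact ⟨by linarith, by linarith, by linarith, by linarith⟩

/-- A point of an open triangle is in no other closed triangle. -/
theorem eq_of_mem {s t : Tri} {z : ℝ × ℝ} (hs : z ∈ ot s) (ht : z ∈ ct t) : t = s := by
  obtain ⟨a1, a2, a3, a4⟩ := ot_bound hs
  obtain ⟨b1, b2, b3, b4⟩ := ct_bound ht
  have e1 : t.1.1 = s.1.1 := by
    have h1 : t.1.1 < s.1.1 + 1 := by exact_mod_cast b1.trans_lt a2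
    have h2 : s.1.1 < t.1.1 + 1 := by exact_mod_cast a1.trans_le b2
    omega
  have e2 : t.1.2 = s.1.2 := by
    have h1 : t.1.2 < s.1.2 + 1 := by exact_mod_cast b3.trans_lt a4
    have h2 : s.1.2 < t.1.2 + 1 := by exact_mod_cast a3.trans_le b4
    omega
  obtain ⟨⟨s1, s2⟩, s3⟩ := s
  obtain ⟨⟨t1, t2⟩, t3⟩ := t
  simp only at e1 e2
  subst e1 e2
  rw [mem_ot] at hs
  rw [mem_ct] at ht
  cases s3 <;> cases t3 <;> simp only [la, lb, if_true, if_false, Bool.false_eq_true] at hs ht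
  · rfl
  · exfalso; linarith [hs.2.2, ht.2.2]
  · exfalso; linarith [hs.2.2, ht.2.2]
  · rfl

/-- The triangles are a locally finite family. -/
theorem locallyFinite_ct : LocallyFinite ct := by
  intro z
  refine ⟨Metric.ball z 1, Metric.ball_mem_nhds z one_pos, ?_⟩
  have hfin : (((Set.Icc (⌊z.1⌋ - 3) (⌊z.1⌋ + 3) ×ˢ Set.Icc (⌊z.2⌋ - 3) (⌊z.2⌋ + 3)) ×ˢ
      (univ : Set Bool)) : Set Tri).Finite :=
    ((Set.finite_Icc _ _).prod (Set.finite_Icc _ _)).prod Set.finite_univ
  refine hfin.subset ?_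
  rintro t ⟨w, hw1, hw2⟩
  obtain ⟨b1, b2, b3, b4⟩ := ct_bound hw1
  rw [Metric.mem_ball, Prod.dist_eq, max_lt_iff, Real.dist_eq, Real.dist_eq, abs_lt, abs_lt] at hw2
  obtain ⟨⟨c1, c2⟩, c3, c4⟩ := hw2
  have h1 := Int.floor_le z.1
  have h2 := Int.lt_floor_add_one z.1
  have h3 := Int.floor_le z.2
  have h4 := Int.lt_floor_add_one z.2
  refine ⟨⟨⟨?_, ?_⟩, ⟨?_, ?_⟩⟩, mem_univ _⟩
  · have : ((⌊z.1⌋ - 3 : ℤ) : ℝ) ≤ t.1.1 := by push_cast; linarith
    exact_mod_cast this
  · have : (t.1.1 : ℝ) ≤ ((⌊z.1⌋ + 3 : ℤ) : ℝ) := by push_cast; linarith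
    exact_mod_cast this
  · have : ((⌊z.2⌋ - 3 : ℤ) : ℝ) ≤ t.1.2 := by push_cast; linarith
    exact_mod_cast this
  · have : (t.1.2 : ℝ) ≤ ((⌊z.2⌋ + 3 : ℤ) : ℝ) := by push_cast; linarith
    exact_mod_cast this

/-- The union of the closed triangles of `T`. -/
def RR (T : Set Tri) : Set (ℝ × ℝ) := {z | ∃ t ∈ T, z ∈ ct t}

/-- The points all of whose triangles are in `T`. -/
def DD (T : Set Tri) : Set (ℝ × ℝ) := {z | ∀ t, z ∈ ct t → t ∈ T}

theorem DD_eq (T : Set Tri) : DD T = (RR Tᶜ)ᶜ := by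
  ext z
  simp only [DD, RR, mem_compl_iff, mem_setOf_eq, not_exists, not_and]
  constructor
  · intro h t ht hz
    exact ht (h t hz)
  · intro h t hz
    by_contra ht
    exact h t ht hz

theorem DD_sub_RR (T : Set Tri) : DD T ⊆ RR T := by
  intro z hz
  obtain ⟨t, ht⟩ := exists_ct z
  exact ⟨t, hz t ht, ht⟩

theorem isClosed_RR (T : Set Tri) : IsClosed (RR T) := by
  have h : LocallyFinite fun t : T => ct t :=
    locallyFinite_ct.comp_injective Subtype.val_injective
  have h2 := h.isClosed_iUnion fun t => isClosed_ct t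
  have : RR T = ⋃ t : T, ct t := by
    ext z
    simp [RR]
  rw [this]
  exact h2

theorem isOpen_DD (T : Set Tri) : IsOpen (DD T) := by
  rw [DD_eq]
  exact (isClosed_RR _).isOpen_compl

theorem ot_sub_DD {T : Set Tri} {t : Tri} (ht : t ∈ T) : ot t ⊆ DD T := by
  intro z hz s hs
  rw [eq_of_mem hz hs]
  exact ht

theorem interior_RR (T : Set Tri) : interior (RR T) = DD T := by
  apply Subset.antisymm
  · intro z hz t ht
    obtain ⟨w, hw1, hw2⟩ := mem_closure_iff.1 (ct_sub_closure t ht) _ isOpen_interior hz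
    obtain ⟨s, hs, hws⟩ := interior_subset hw1
    rw [← eq_of_mem hw2 hws]
    exact hs
  · exact interior_maximal (DD_sub_RR T) (isOpen_DD T)

theorem closure_DD (T : Set Tri) : closure (DD T) = RR T := by
  apply Subset.antisymm
  · exact closure_minimal (DD_sub_RR T) (isClosed_RR T)
  · rintro z ⟨t, ht, hz⟩
    exact closure_mono (ot_sub_DD ht) (ct_sub_closure t hz)

theorem frontier_DD (T : Set Tri) : frontier (DD T) = RR T ∩ RR Tᶜ := by
  rw [(isOpen_DD T).frontier_eq, closure_DD, DD_eq, sdiff_compl]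

/-! ### The edges -/

/-- The lattice point in real coordinates. -/
def rp (v : ℤ × ℤ) : ℝ × ℝ := (v.1, v.2)

/-- The point on the edge from `v` in the direction `k`. -/
noncomputable def ep (v : ℤ × ℤ) (k : Fin 6) (θ : ℝ) : ℝ × ℝ := rp v + θ • rp (dir k)

theorem ep_mem_ta (v : ℤ × ℤ) (k : Fin 6) {θ : ℝ} (h0 : 0 ≤ θ) (h1 : θ ≤ 1) :
    ep v k θ ∈ ct (ta v k) := by
  obtain ⟨a, b⟩ := v
  rw [mem_ct]
  fin_cases k <;> simp [ep, rp, dir, ta, la, lb] <;> (try constructorm* _ ∧ _) <;> linarith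

theorem ep_mem_tb (v : ℤ × ℤ) (k : Fin 6) {θ : ℝ} (h0 : 0 ≤ θ) (h1 : θ ≤ 1) :
    ep v k θ ∈ ct (tb v k) := by
  obtain ⟨a, b⟩ := v
  rw [mem_ct]
  fin_cases k <;> simp [ep, rp, dir, tb, la, lb] <;> (try constructorm* _ ∧ _) <;> linarith

theorem int_of {m : ℤ} {x : ℝ} (h : 0 ≤ (m : ℝ) + x) (hx : x < 1) : 0 ≤ m := by
  have h1 : (-1 : ℝ) < m := by linarith
  have h2 : (-1 : ℤ) < m := by exact_mod_cast h1
  omega

theorem int_of' {m : ℤ} {x : ℝ} (h : 0 ≤ (m : ℝ) + x) (hx : x < 0) : 1 ≤ m := by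
  have h1 : (0 : ℝ) < m := by linarith
  have h2 : (0 : ℤ) < m := by exact_mod_cast h1
  omega

theorem ep_flip (v : ℤ × ℤ) (k : Fin 6) (θ : ℝ) :
    ep (v + dir k) (opp k) (1 - θ) = ep v k θ := by
  have e1 : rp (dir (opp k)) = -rp (dir k) := by
    rw [dir_opp]
    simp [rp]
  have e2 : rp (v + dir k) = rp v + rp (dir k) := by simp [rp]
  rw [ep, ep, e1, e2]
  module

/-- A point inside an edge is only in the two sides of the edge. -/
theorem ep_unique {v : ℤ × ℤ} {k : Fin 6} {θ : ℝ} (h0 : 0 < θ) (h1 : θ < 1) {t : Tri}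
    (ht : ep v k θ ∈ ct t) : t = tb v k ∨ t = ta v k := by
  have main : ∀ (v : ℤ × ℤ) (k : Fin 6) (θ : ℝ), 0 < θ → θ < 1 → (k = 0 ∨ k = 1 ∨ k = 2) →
      ep v k θ ∈ ct t → t = tb v k ∨ t = ta v k := by
    rintro ⟨a, b⟩ k θ h0 h1 hk ht
    obtain ⟨⟨c, d⟩, e⟩ := t
    rw [mem_ct] at ht
    rcases hk with rfl | rfl | rfl <;> cases e <;>
      simp [ep, rp, dir, la, lb] at ht <;> obtain ⟨g1, g2, g3⟩ := ht
    · right
      have i1 : 0 ≤ a - c := int_of (x := θ) (by push_cast; linarith) h1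
      have i2 : 0 ≤ b - d := by omega
      have i3 : 1 ≤ 1 - a + c - b + d := int_of' (x := -θ) (by push_cast; linarith) (by linarith)
      simp [ta, Prod.ext_iff]; omega
    · left
      have i1 : 1 ≤ c + 1 - a := int_of' (x := -θ) (by push_cast; linarith) (by linarith)
      have i2 : 0 ≤ d + 1 - b := int_of (x := 0) (by push_cast; linarith) one_pos
      have i3 : 0 ≤ a + b - c - d - 1 := int_of (x := θ) (by push_cast; linarith) h1
      simp [tb, Prod.ext_iff]; omega
    · left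
      have i1 : 0 ≤ a - c := by omega
      have i2 : 0 ≤ b - d := int_of (x := θ) (by push_cast; linarith) h1
      have i3 : 1 ≤ 1 - a + c - b + d := int_of' (x := -θ) (by push_cast; linarith) (by linarith)
      simp [tb, Prod.ext_iff]; omega
    · right
      have i1 : 0 ≤ c + 1 - a := int_of (x := 0) (by push_cast; linarith) one_pos
      have i2 : 1 ≤ d + 1 - b := int_of' (x := -θ) (by push_cast; linarith) (by linarith)
      have i3 : 0 ≤ a + b - c - d - 1 := int_of (x := θ) (by push_cast; linarith) h1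
      simp [ta, Prod.ext_iff]; omega
    · right
      have i1 : 1 ≤ a - c := int_of' (x := -θ) (by push_cast; linarith) (by linarith)
      have i2 : 0 ≤ b - d := int_of (x := θ) (by push_cast; linarith) h1
      have i3 : 0 ≤ 1 - a + c - b + d := int_of (x := 0) (by push_cast; linarith) one_pos
      simp [ta, Prod.ext_iff]; omega
    · left
      have i1 : 0 ≤ c + 1 - a := int_of (x := θ) (by push_cast; linarith) h1
      have i2 : 1 ≤ d + 1 - b := int_of' (x := -θ) (by push_cast; linarith) (by linarith)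
      have i3 : 0 ≤ a + b - c - d - 1 := int_of (x := 0) (by push_cast; linarith) one_pos
      simp [tb, Prod.ext_iff]; omega
  have flip : (opp k = 0 ∨ opp k = 1 ∨ opp k = 2) → t = tb v k ∨ t = ta v k := by
    intro hk
    have := main (v + dir k) (opp k) (1 - θ) (by linarith) (by linarith) hk
      (by rw [ep_flip]; exact ht)
    rw [ta_flip, tb_flip] at this
    exact this.symm
  fin_cases k
  · exact main _ _ _ h0 h1 (by simp) ht
  · exact main _ _ _ h0 h1 (by simp) ht
  · exact main _ _ _ h0 h1 (by simp) ht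
  · exact flip (by decide)
  · exact flip (by decide)
  · exact flip (by decide)

/-- The triangles of a lattice point. -/
theorem rp_unique {v : ℤ × ℤ} {t : Tri} (ht : rp v ∈ ct t) : ∃ k, t = ta v k := by
  obtain ⟨a, b⟩ := v
  obtain ⟨⟨c, d⟩, e⟩ := t
  rw [mem_ct] at ht
  cases e <;> simp [rp, la, lb] at ht <;> obtain ⟨g1, g2, g3⟩ := ht
  · have g3' : a - c + (b - d) ≤ 1 := by exact_mod_cast g3
    have : (c = a ∧ d = b) ∨ (c = a - 1 ∧ d = b) ∨ (c = a ∧ d = b - 1) := by omega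
    rcases this with ⟨rfl, rfl⟩ | ⟨rfl, rfl⟩ | ⟨rfl, rfl⟩
    · exact ⟨0, rfl⟩
    · exact ⟨2, by simp [ta]⟩
    · exact ⟨4, by simp [ta]⟩
  · have g1' : a ≤ c + 1 := by exact_mod_cast g1
    have g2' : b ≤ d + 1 := by exact_mod_cast g2
    have g3' : c + 1 - a + (d + 1 - b) ≤ 1 := by exact_mod_cast g3
    have : (c = a - 1 ∧ d = b - 1) ∨ (c = a ∧ d = b - 1) ∨ (c = a - 1 ∧ d = b) := by omega
    rcases this with ⟨rfl, rfl⟩ | ⟨rfl, rfl⟩ | ⟨rfl, rfl⟩
    · exact ⟨3, by simp [ta]⟩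
    · exact ⟨5, by simp [ta]⟩
    · exact ⟨1, by simp [ta]⟩

theorem ep_zero (v : ℤ × ℤ) (k : Fin 6) : ep v k 0 = rp v := by simp [ep]

theorem ep_one (v : ℤ × ℤ) (k : Fin 6) : ep v k 1 = rp (v + dir k) := by simp [ep, rp]

theorem rp_mem (v : ℤ × ℤ) (k : Fin 6) : rp v ∈ ct (ta v k) := by
  rw [← ep_zero v k]
  exact ep_mem_ta v k le_rfl zero_le_one

/-- A point of the boundary of a triangle is on an edge. -/
theorem exists_ep {t : Tri} {z : ℝ × ℝ} (hz : z ∈ ct t) (hz' : z ∉ ot t) :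
    ∃ v k θ, 0 ≤ θ ∧ θ ≤ 1 ∧ z = ep v k θ := by
  obtain ⟨x, y⟩ := z
  obtain ⟨⟨c, d⟩, e⟩ := t
  rw [mem_ct] at hz
  rw [mem_ot] at hz'
  obtain ⟨h1, h2, h3⟩ := hz
  have h4 : la ((c, d), e) (x, y) = 0 ∨ lb ((c, d), e) (x, y) = 0 ∨
      la ((c, d), e) (x, y) + lb ((c, d), e) (x, y) = 1 := by
    by_contra hcon
    push Not at hcon
    exact hz' ⟨lt_of_le_of_ne h1 hcon.1.symm, lt_of_le_of_ne h2 hcon.2.1.symm,
      lt_of_le_of_ne h3 hcon.2.2⟩
  cases e
  · simp only [la, lb, if_false, Bool.false_eq_true] at h1 h2 h3 h4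
    rcases h4 with h | h | h
    · refine ⟨(c, d), 1, y - d, by linarith, by linarith, ?_⟩
      simp [ep, rp, dir]
      linarith
    · refine ⟨(c, d), 0, x - c, by linarith, by linarith, ?_⟩
      simp [ep, rp, dir]
      linarith
    · refine ⟨(c + 1, d), 2, y - d, by linarith, by linarith, ?_⟩
      simp [ep, rp, dir]
      linarith
  · simp only [la, lb, if_true] at h1 h2 h3 h4
    rcases h4 with h | h | h
    · refine ⟨(c + 1, d), 1, y - d, by linarith, by linarith, ?_⟩
      simp [ep, rp, dir]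
      linarith
    · refine ⟨(c, d + 1), 0, x - c, by linarith, by linarith, ?_⟩
      simp [ep, rp, dir]
      linarith
    · refine ⟨(c + 1, d), 2, y - d, by linarith, by linarith, ?_⟩
      simp [ep, rp, dir]
      linarith

end Vale.Agent.P153.R2.POLY
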