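import Vale.Agent.P153.R2.POLY.Intu
import Vale.Agent.P153.R2.INTF.Step

/-!
# P153, block POLY: the states of the exploration in the frames

For a state `s = (v + dir k, v)` the face ahead is `tb v k`, the face behind is `ta v k`.
`ms s` is the midpoint of its edge, in lattice coordinates.
-/

set_option linter.all false

namespace Vale.Agent.P153.R2.POLY

open Vale.Agent.P153.R2.Final Set Filter Topology
open Vale.Agent.P153.R2.INTF (St run fa fb ah len Good NZ Alive)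

theorem st_dir {s : St} (hs : Vale.Agent.P153.Adj s.1 s.2) : ∃ v k, s = (v + dir k, v) := by
  obtain ⟨a, b, h | h | h | h | h | h⟩ := INTF.st_cases hs <;> subst h
  · exact ⟨(a, b), 0, by simp [dir]⟩
  · exact ⟨(a, b), 1, by simp [dir]⟩
  · exact ⟨(a, b), 2, by simp [dir]; ring⟩
  · exact ⟨(a, b), 3, by simp [dir]; ring⟩
  · exact ⟨(a, b), 4, by simp [dir]; ring⟩
  · exact ⟨(a, b), 5, by simp [dir]; ring⟩

theorem adj_st (v : ℤ × ℤ) (k : Fin 6) : Vale.Agent.P153.Adj (v + dir k) v := by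
  obtain ⟨a, b⟩ := v
  rw [Topo.adj_iff]
  fin_cases k <;> simp [dir]

theorem adj_conv {v w : ℤ × ℤ} : Vale.Agent.P153.Adj v w ↔ Final.Adj v w := by
  constructor
  · intro h
    obtain ⟨u, k, e⟩ := st_dir (s := (w, v)) (Topo.adj_symm h)
    have e1 : w = u + dir k := congrArg Prod.fst e
    have e2 : v = u := congrArg Prod.snd e
    rw [e1, e2]
    exact adj_dir u k
  · intro h
    obtain ⟨k, rfl⟩ := adj_iff_dir.1 h
    exact Topo.adj_symm (adj_st v k)

theorem fa_dir (v : ℤ × ℤ) (k : Fin 6) : fa (v + dir k, v) = tb v k := by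
  obtain ⟨a, b⟩ := v
  fin_cases k <;> simp [fa, dir, tb]

theorem ah_dir (v : ℤ × ℤ) (k : Fin 6) : ah (v + dir k, v) = v + dir (pr k) := by
  obtain ⟨a, b⟩ := v
  fin_cases k <;> simp [ah, INTF.rm, dir, pr]

theorem fb_dir (v : ℤ × ℤ) (k : Fin 6) : fb (v + dir k, v) = ta v k := by
  have h : v = (v + dir k) + dir (opp k) := by rw [dir_opp, add_assoc, add_neg_cancel, add_zero]
  have : fb (v + dir k, v) = fa ((v + dir k) + dir (opp k), v + dir k) := by
    rw [← h]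
    rfl
  rw [this, fa_dir, tb_flip]

/-- The midpoint of the edge of the state. -/
noncomputable def ms (s : St) : ℝ × ℝ := (1 / 2 : ℝ) • rp s.1 + (1 / 2 : ℝ) • rp s.2

theorem ms_dir (v : ℤ × ℤ) (k : Fin 6) : ms (v + dir k, v) = ep v k (1 / 2) := by
  rw [ep_half, ms, add_comm]

theorem NN_mid' {δ : ℝ} (hδ : 0 < δ) (s : St) : NN hδ (mid δ s.1 s.2) = ms s := NN_mid hδ _ _

theorem mem_ot_tb {v : ℤ × ℤ} {k : Fin 6} {z : ℝ × ℝ} :
    z ∈ ot (tb v k) ↔ fy v k z < 0 ∧ 0 < fx v k z + fy v k z ∧ fx v k z < 1 := by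
  obtain ⟨a, b⟩ := v
  obtain ⟨x, y⟩ := z
  rw [mem_ot]
  fin_cases k <;> constructor <;> rintro ⟨h1, h2, h3⟩ <;>
    simp [fx, fy, tb, la, lb] at h1 h2 h3 ⊢ <;> (try constructorm* _ ∧ _) <;> linarith

theorem fx_comb (v : ℤ × ℤ) (k : Fin 6) (z w : ℝ × ℝ) {a b : ℝ} (h : a + b = 1) :
    fx v k (a • z + b • w) = a * fx v k z + b * fx v k w := by
  obtain ⟨c, d⟩ := v
  have : a = 1 - b := by linarith
  subst this
  fin_cases k <;> simp [fx] <;> ring

theorem fy_comb (v : ℤ × ℤ) (k : Fin 6) (z w : ℝ × ℝ) {a b : ℝ} (h : a + b = 1) :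
    fy v k (a • z + b • w) = a * fy v k z + b * fy v k w := by
  obtain ⟨c, d⟩ := v
  have : a = 1 - b := by linarith
  subst this
  fin_cases k <;> simp [fy] <;> ring

theorem fx_here (v : ℤ × ℤ) (k : Fin 6) : fx v k (ms (v + dir k, v)) = 1 / 2 := by
  obtain ⟨c, d⟩ := v
  fin_cases k <;> simp [fx, ms, rp, dir] <;> ring

theorem fy_here (v : ℤ × ℤ) (k : Fin 6) : fy v k (ms (v + dir k, v)) = 0 := by
  obtain ⟨c, d⟩ := v
  fin_cases k <;> simp [fy, ms, rp, dir] <;> ring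

theorem fx_left (v : ℤ × ℤ) (k : Fin 6) : fx v k (ms (v + dir (pr k), v)) = 1 / 2 := by
  obtain ⟨c, d⟩ := v
  fin_cases k <;> simp [fx, ms, rp, dir, pr] <;> ring

theorem fy_left (v : ℤ × ℤ) (k : Fin 6) : fy v k (ms (v + dir (pr k), v)) = -(1 / 2) := by
  obtain ⟨c, d⟩ := v
  fin_cases k <;> simp [fy, ms, rp, dir, pr] <;> ring

theorem fx_right (v : ℤ × ℤ) (k : Fin 6) : fx v k (ms (v + dir k, v + dir (pr k))) = 1 := by
  obtain ⟨c, d⟩ := v
  fin_cases k <;> simp [fx, ms, rp, dir, pr] <;> ring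

theorem fy_right (v : ℤ × ℤ) (k : Fin 6) :
    fy v k (ms (v + dir k, v + dir (pr k))) = -(1 / 2) := by
  obtain ⟨c, d⟩ := v
  fin_cases k <;> simp [fy, ms, rp, dir, pr] <;> ring

theorem nx_cases (h : ℤ × ℤ → ℤ) (v : ℤ × ℤ) (k : Fin 6) :
    INTF.nx h (v + dir k, v) = (v + dir (pr k), v) ∨
      INTF.nx h (v + dir k, v) = (v + dir k, v + dir (pr k)) := by
  unfold INTF.nx
  rw [ah_dir]
  split
  · exact Or.inl rfl
  · exact Or.inr rfl

section Seg

variable {h : ℤ × ℤ → ℤ} {v : ℤ × ℤ} {k : Fin 6}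

/-- The segment from one midpoint to the next. -/
noncomputable def sg' (h : ℤ × ℤ → ℤ) (s : St) (θ : ℝ) : ℝ × ℝ :=
  (1 - θ) • ms s + θ • ms (INTF.nx h s)

theorem fy_sg (θ : ℝ) : fy v k (sg' h (v + dir k, v) θ) = -(θ / 2) := by
  rw [sg', fy_comb v k _ _ (by ring), fy_here]
  rcases nx_cases h v k with e | e <;> rw [e]
  · rw [fy_left]; ring
  · rw [fy_right]; ring

theorem sg_inj {s : St} (hs : Vale.Agent.P153.Adj s.1 s.2) {θ θ' : ℝ}
    (he : sg' h s θ = sg' h s θ') : θ = θ' := by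
  obtain ⟨v, k, rfl⟩ := st_dir hs
  have := congrArg (fy v k) he
  rw [fy_sg, fy_sg] at this
  linarith

theorem sg_mem {s : St} (hs : Vale.Agent.P153.Adj s.1 s.2) {θ : ℝ} (h0 : 0 < θ) (h1 : θ < 1) :
    sg' h s θ ∈ ot (fa s) := by
  obtain ⟨v, k, rfl⟩ := st_dir hs
  rw [fa_dir, mem_ot_tb, fy_sg]
  have e : fx v k (sg' h (v + dir k, v) θ) = 1 / 2 ∨
      fx v k (sg' h (v + dir k, v) θ) = 1 / 2 + θ / 2 := by
    rw [sg', fx_comb v k _ _ (by ring), fx_here]
    rcases nx_cases h v k with e | e <;> rw [e]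
    · left; rw [fx_left]; ring
    · right; rw [fx_right]; ring
  rcases e with e | e <;> rw [e] <;> refine ⟨by linarith, by linarith, by linarith⟩

theorem ms_mem_fa {s : St} (hs : Vale.Agent.P153.Adj s.1 s.2) : ms s ∈ ct (fa s) := by
  obtain ⟨v, k, rfl⟩ := st_dir hs
  rw [fa_dir, ms_dir]
  exact ep_mem_tb v k (by norm_num) (by norm_num)

theorem ms_mem_fb {s : St} (hs : Vale.Agent.P153.Adj s.1 s.2) : ms s ∈ ct (fb s) := by
  obtain ⟨v, k, rfl⟩ := st_dir hs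
  rw [fb_dir, ms_dir]
  exact ep_mem_ta v k (by norm_num) (by norm_num)

theorem ms_faces {s : St} (hs : Vale.Agent.P153.Adj s.1 s.2) {t : Tri} (ht : ms s ∈ ct t) :
    t = fa s ∨ t = fb s := by
  obtain ⟨v, k, rfl⟩ := st_dir hs
  rw [ms_dir] at ht
  rw [fa_dir, fb_dir]
  exact ep_unique (by norm_num) (by norm_num) ht

theorem fa_ne_fb {s : St} (hs : Vale.Agent.P153.Adj s.1 s.2) : fa s ≠ fb s := by
  obtain ⟨v, k, rfl⟩ := st_dir hs
  rw [fa_dir, fb_dir]
  exact (ta_ne_tb v k).symm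

theorem ms_notMem_ot {s : St} (hs : Vale.Agent.P153.Adj s.1 s.2) (t : Tri) : ms s ∉ ot t := by
  intro ht
  exact fa_ne_fb hs ((eq_of_mem ht (ms_mem_fa hs)).trans (eq_of_mem ht (ms_mem_fb hs)).symm)

theorem ms_inj {s s' : St} (hs : Vale.Agent.P153.Adj s.1 s.2) (hs' : Vale.Agent.P153.Adj s'.1 s'.2)
    (he : ms s = ms s') : s' = s ∨ s' = (s.2, s.1) := by
  have h1 : s.1.1 + s.2.1 = s'.1.1 + s'.2.1 := by
    have := congrArg Prod.fst he
    simp only [ms, rp, Prod.fst_add, Prod.smul_fst, smul_eq_mul] at this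
    have h2 : (s.1.1 : ℝ) + s.2.1 = s'.1.1 + s'.2.1 := by linarith
    exact_mod_cast h2
  have h2 : s.1.2 + s.2.2 = s'.1.2 + s'.2.2 := by
    have := congrArg Prod.snd he
    simp only [ms, rp, Prod.snd_add, Prod.smul_snd, smul_eq_mul] at this
    have h2 : (s.1.2 : ℝ) + s.2.2 = s'.1.2 + s'.2.2 := by linarith
    exact_mod_cast h2
  obtain ⟨a, b, h | h | h | h | h | h⟩ := INTF.st_cases hs <;> subst h <;>
  obtain ⟨a', b', h | h | h | h | h | h⟩ := INTF.st_cases hs' <;> subst h <;>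
    simp only [Prod.mk.injEq] at h1 h2 ⊢ <;> omega

/-- The interpolation vanishes on the segment. -/
theorem ff_sg {s : St} (hs : Vale.Agent.P153.Adj s.1 s.2) (h1 : h s.1 = 1) (h2 : h s.2 = -1)
    (h3 : h (INTF.nx h s).1 = 1) (h4 : h (INTF.nx h s).2 = -1) {θ : ℝ} (t0 : 0 ≤ θ) (t1 : θ < 1) :
    ff h (sg' h s θ) = 0 := by
  have hm : sg' h s θ ∈ ct (fa s) := by
    rcases t0.eq_or_lt with h0 | h0
    · rw [← h0, sg', sub_zero, one_smul, zero_smul, add_zero]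
      exact ms_mem_fa hs
    · exact ot_sub_ct _ (sg_mem hs h0 t1)
  obtain ⟨v, k, rfl⟩ := st_dir hs
  rw [fa_dir] at hm
  rw [ff_tb h hm, fy_sg, h1, h2]
  have hfx : fx v k (sg' h (v + dir k, v) θ) = (1 - θ) * (1 / 2) +
      θ * fx v k (ms (INTF.nx h (v + dir k, v))) := by
    rw [sg', fx_comb v k _ _ (by ring), fx_here]
  rcases nx_cases h v k with e | e
  · rw [e] at h3 h4 hfx
    rw [fx_left] at hfx
    rw [hfx, h3]
    push_cast
    ring
  · rw [e] at h3 h4 hfx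
    rw [fx_right] at hfx
    rw [hfx, h4]
    push_cast
    ring

end Seg

end Vale.Agent.P153.R2.POLY
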