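import Vale.Agent.P153.R2.POLY.Aff

/-!
# P153, block POLY, part 4: the zero set of the interpolation

`ZZ h S`: the zero set in the union of the triangles of `S`, in lattice coordinates. Near each of its
points it is an arc: `fy v k` is an injective coordinate on it.
-/

set_option linter.all false

namespace Vale.Agent.P153.R2.POLY

open Vale.Agent.P153.R2.Final Set Filter Topology

/-- The zero set, in lattice coordinates. -/
def ZZ (h : ℤ × ℤ → ℤ) (S : Finset Tri) : Set (ℝ × ℝ) := {z | z ∈ RR (S : Set Tri) ∧ ff h z = 0}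

/-- Odd heights with steps at most two. -/
structure HOK (h : ℤ × ℤ → ℤ) (S : Finset Tri) : Prop where
  odd : ∀ v ∈ verts S, Odd (h v)
  step : ∀ v ∈ verts S, ∀ w ∈ verts S, Adj v w → |h v - h w| ≤ 2

theorem cor_ta (v : ℤ × ℤ) (k : Fin 6) :
    v ∈ corners (ta v k) ∧ v + dir k ∈ corners (ta v k) ∧ v + dir (nx k) ∈ corners (ta v k) := by
  obtain ⟨a, b⟩ := v
  fin_cases k <;> simp [corners, ta, dir, nx] <;> omega

theorem cor_tb (v : ℤ × ℤ) (k : Fin 6) :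
    v ∈ corners (tb v k) ∧ v + dir k ∈ corners (tb v k) ∧ v + dir (pr k) ∈ corners (tb v k) := by
  obtain ⟨a, b⟩ := v
  fin_cases k <;> simp [corners, tb, dir, pr] <;> omega

theorem mem_verts {S : Finset Tri} {t : Tri} (ht : t ∈ S) {v : ℤ × ℤ} (hv : v ∈ corners t) :
    v ∈ verts S := Finset.mem_biUnion.2 ⟨t, ht, hv⟩

theorem dir_nx_sub (k : Fin 6) : ∃ j, dir (nx k) = dir k + dir j := by
  fin_cases k
  · exact ⟨2, rfl⟩
  · exact ⟨3, rfl⟩
  · exact ⟨4, rfl⟩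
  · exact ⟨5, rfl⟩
  · exact ⟨0, rfl⟩
  · exact ⟨1, rfl⟩

theorem dir_pr_sub (k : Fin 6) : ∃ j, dir (pr k) = dir k + dir j := by
  fin_cases k
  · exact ⟨4, rfl⟩
  · exact ⟨5, rfl⟩
  · exact ⟨0, rfl⟩
  · exact ⟨1, rfl⟩
  · exact ⟨2, rfl⟩
  · exact ⟨3, rfl⟩

theorem adj_dir (v : ℤ × ℤ) (k : Fin 6) : Adj v (v + dir k) := adj_iff_dir.2 ⟨k, rfl⟩

theorem adj_nx (v : ℤ × ℤ) (k : Fin 6) : Adj (v + dir k) (v + dir (nx k)) := by
  obtain ⟨j, hj⟩ := dir_nx_sub k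
  exact adj_iff_dir.2 ⟨j, by rw [hj, add_assoc]⟩

theorem adj_pr (v : ℤ × ℤ) (k : Fin 6) : Adj (v + dir k) (v + dir (pr k)) := by
  obtain ⟨j, hj⟩ := dir_pr_sub k
  exact adj_iff_dir.2 ⟨j, by rw [hj, add_assoc]⟩

/-- The edge from `v` in the direction `k` has a change of sign. -/
def Chg (h : ℤ × ℤ → ℤ) (v : ℤ × ℤ) (k : Fin 6) : Prop :=
  (h v = 1 ∧ h (v + dir k) = -1) ∨ (h v = -1 ∧ h (v + dir k) = 1)

section Loc

variable {h : ℤ × ℤ → ℤ} {S : Finset Tri} {v : ℤ × ℤ} {k : Fin 6} {z w : ℝ × ℝ}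

theorem third_ta (hh : HOK h S) (ht : ta v k ∈ S) (hc : Chg h v k) :
    h (v + dir (nx k)) = 1 ∨ h (v + dir (nx k)) = -1 := by
  obtain ⟨c1, c2, c3⟩ := cor_ta v k
  have o3 := hh.odd _ (mem_verts ht c3)
  have s1 := hh.step _ (mem_verts ht c1) _ (mem_verts ht c3) (adj_dir v (nx k))
  have s2 := hh.step _ (mem_verts ht c2) _ (mem_verts ht c3) (adj_nx v k)
  rw [abs_le] at s1 s2
  obtain ⟨m, hm⟩ := o3
  rcases hc with ⟨e1, e2⟩ | ⟨e1, e2⟩ <;> rw [e1] at s1 <;> rw [e2] at s2 <;> omega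

theorem third_tb (hh : HOK h S) (ht : tb v k ∈ S) (hc : Chg h v k) :
    h (v + dir (pr k)) = 1 ∨ h (v + dir (pr k)) = -1 := by
  obtain ⟨c1, c2, c3⟩ := cor_tb v k
  have o3 := hh.odd _ (mem_verts ht c3)
  have s1 := hh.step _ (mem_verts ht c1) _ (mem_verts ht c3) (adj_dir v (pr k))
  have s2 := hh.step _ (mem_verts ht c2) _ (mem_verts ht c3) (adj_pr v k)
  rw [abs_le] at s1 s2
  obtain ⟨m, hm⟩ := o3
  rcases hc with ⟨e1, e2⟩ | ⟨e1, e2⟩ <;> rw [e1] at s1 <;> rw [e2] at s2 <;> omega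

/-- On `ta v k` the first coordinate of a zero is determined by the second one. -/
theorem zero_ta (hh : HOK h S) (ht : ta v k ∈ S) (hc : Chg h v k) :
    ∃ c : ℝ, ∀ z ∈ ct (ta v k), ff h z = 0 → fx v k z = 1 / 2 - c * fy v k z := by
  rcases hc with ⟨e1, e2⟩ | ⟨e1, e2⟩ <;>
    rcases third_ta hh ht (by first | exact Or.inl ⟨e1, e2⟩ | exact Or.inr ⟨e1, e2⟩) with e3 | e3
  · refine ⟨0, fun z hz h0 => ?_⟩
    rw [ff_ta h hz, e1, e2, e3] at h0
    push_cast at h0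
    linarith
  · refine ⟨1, fun z hz h0 => ?_⟩
    rw [ff_ta h hz, e1, e2, e3] at h0
    push_cast at h0
    linarith
  · refine ⟨1, fun z hz h0 => ?_⟩
    rw [ff_ta h hz, e1, e2, e3] at h0
    push_cast at h0
    linarith
  · refine ⟨0, fun z hz h0 => ?_⟩
    rw [ff_ta h hz, e1, e2, e3] at h0
    push_cast at h0
    linarith

theorem zero_tb (hh : HOK h S) (ht : tb v k ∈ S) (hc : Chg h v k) :
    ∃ c : ℝ, ∀ z ∈ ct (tb v k), ff h z = 0 → fx v k z = 1 / 2 - c * fy v k z := by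
  rcases hc with ⟨e1, e2⟩ | ⟨e1, e2⟩ <;>
    rcases third_tb hh ht (by first | exact Or.inl ⟨e1, e2⟩ | exact Or.inr ⟨e1, e2⟩) with e3 | e3
  · refine ⟨1, fun z hz h0 => ?_⟩
    rw [ff_tb h hz, e1, e2, e3] at h0
    push_cast at h0
    linarith
  · refine ⟨0, fun z hz h0 => ?_⟩
    rw [ff_tb h hz, e1, e2, e3] at h0
    push_cast at h0
    linarith
  · refine ⟨0, fun z hz h0 => ?_⟩
    rw [ff_tb h hz, e1, e2, e3] at h0
    push_cast at h0
    linarith
  · refine ⟨1, fun z hz h0 => ?_⟩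
    rw [ff_tb h hz, e1, e2, e3] at h0
    push_cast at h0
    linarith

/-- The zeros in the sides of the edge which belong to `S`. -/
def Zs (h : ℤ × ℤ → ℤ) (S : Finset Tri) (v : ℤ × ℤ) (k : Fin 6) : Set (ℝ × ℝ) :=
  {z | ff h z = 0 ∧ ((z ∈ ct (ta v k) ∧ ta v k ∈ S) ∨ (z ∈ ct (tb v k) ∧ tb v k ∈ S))}

/-- `fy v k` is injective on the zeros in the two sides of the edge. -/
theorem injOn_fy (hh : HOK h S) (hc : Chg h v k) : InjOn (fy v k) (Zs h S v k) := by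
  have key : ∀ z ∈ Zs h S v k, ∀ w ∈ Zs h S v k, fy v k z = fy v k w →
      fx v k z = fx v k w := by
    rintro z ⟨z0, hz⟩ w ⟨w0, hw⟩ he
    rcases hz with ⟨hz, ht⟩ | ⟨hz, ht⟩ <;> rcases hw with ⟨hw, ht'⟩ | ⟨hw, ht'⟩
    · obtain ⟨c, h1⟩ := zero_ta hh ht hc
      rw [h1 z hz z0, h1 w hw w0, he]
    · obtain ⟨c, h1⟩ := zero_ta hh ht hc
      obtain ⟨c', h2⟩ := zero_tb hh ht' hc
      have h3 := (mem_ct_ta.1 hz).2.1
      have h4 := (mem_ct_tb.1 hw).1
      have h5 : fy v k z = 0 := by linarith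
      have h6 : fy v k w = 0 := by linarith
      rw [h1 z hz z0, h2 w hw w0, h5, h6, mul_zero, mul_zero]
    · obtain ⟨c, h1⟩ := zero_tb hh ht hc
      obtain ⟨c', h2⟩ := zero_ta hh ht' hc
      have h3 := (mem_ct_tb.1 hz).1
      have h4 := (mem_ct_ta.1 hw).2.1
      have h5 : fy v k z = 0 := by linarith
      have h6 : fy v k w = 0 := by linarith
      rw [h1 z hz z0, h2 w hw w0, h5, h6, mul_zero, mul_zero]
    · obtain ⟨c, h1⟩ := zero_tb hh ht hc
      rw [h1 z hz z0, h1 w hw w0, he]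
  intro z hz w hw he
  exact frame_ext (key z hz w hw he) he

end Loc

/-- Rotation of the frame. -/
def rot : Fin 6 → Fin 6 := ![2, 3, 4, 5, 0, 1]

theorem ta_rot (v : ℤ × ℤ) (k : Fin 6) : ta (v + dir k) (rot k) = ta v k := by
  obtain ⟨a, b⟩ := v
  fin_cases k <;> simp [ta, dir, rot, Prod.ext_iff] <;> omega

theorem rot1 (v : ℤ × ℤ) (k : Fin 6) : v + dir k + dir (rot k) = v + dir (nx k) := by
  obtain ⟨a, b⟩ := v
  fin_cases k <;> simp [dir, rot, nx, Prod.ext_iff]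

theorem rot2 (v : ℤ × ℤ) (k : Fin 6) : v + dir k + dir (nx (rot k)) = v := by
  obtain ⟨a, b⟩ := v
  fin_cases k <;> simp [dir, rot, nx, Prod.ext_iff]

theorem exists_ta (t : Tri) : ∃ v k, t = ta v k := by
  obtain ⟨v, b⟩ := t
  cases b
  · exact ⟨v, 0, rfl⟩
  · exact ⟨v + (1, 0), 1, by simp [ta]⟩

theorem ep_of_frame {v : ℤ × ℤ} {k : Fin 6} {z : ℝ × ℝ} (h : fy v k z = 0) :
    z = ep v k (fx v k z) := by
  obtain ⟨a, b⟩ := v
  obtain ⟨x, y⟩ := z
  fin_cases k <;> simp [fx, fy, ep, rp, dir] at h ⊢ <;> (try constructor) <;> linarith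

theorem ep_of_frame' {v : ℤ × ℤ} {k : Fin 6} {z : ℝ × ℝ} (h : fx v k z = 0) :
    z = ep v (nx k) (fy v k z) := by
  obtain ⟨a, b⟩ := v
  obtain ⟨x, y⟩ := z
  fin_cases k <;> simp [fx, fy, ep, rp, dir, nx] at h ⊢ <;> (try constructor) <;> linarith

theorem fy_ep (v : ℤ × ℤ) (k : Fin 6) (θ : ℝ) : fy v k (ep v k θ) = 0 := by
  obtain ⟨a, b⟩ := v
  fin_cases k <;> simp [fy, ep, rp, dir]

/-- The position of a zero: inside a triangle or at the midpoint of an edge. -/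
theorem zero_pos {h : ℤ × ℤ → ℤ} {S : Finset Tri} (hh : HOK h S) {z : ℝ × ℝ} (hz : z ∈ ZZ h S) :
    (∃ v k, ta v k ∈ S ∧ Chg h v k ∧ z ∈ ot (ta v k)) ∨
      ∃ v k, Chg h v k ∧ z = ep v k (1 / 2) ∧ (ta v k ∈ S ∨ tb v k ∈ S) := by
  obtain ⟨⟨t, ht, hzt⟩, h0⟩ := hz
  have htS : t ∈ S := ht
  -- a frame at the vertex with the exceptional sign
  obtain ⟨v, k, rfl, a, ha, e1, e2, e3⟩ : ∃ v k, t = ta v k ∧ ∃ a : ℤ, (a = 1 ∨ a = -1) ∧
      h v = a ∧ h (v + dir k) = -a ∧ h (v + dir (nx k)) = -a := by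
    obtain ⟨v, k, rfl⟩ := exists_ta t
    obtain ⟨c1, c2, c3⟩ := cor_ta v k
    have o1 := hh.odd _ (mem_verts htS c1)
    have o2 := hh.odd _ (mem_verts htS c2)
    have o3 := hh.odd _ (mem_verts htS c3)
    have s1 := hh.step _ (mem_verts htS c1) _ (mem_verts htS c2) (adj_dir v k)
    have s2 := hh.step _ (mem_verts htS c1) _ (mem_verts htS c3) (adj_dir v (nx k))
    have s3 := hh.step _ (mem_verts htS c2) _ (mem_verts htS c3) (adj_nx v k)
    rw [abs_le] at s1 s2 s3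
    obtain ⟨m1, hm1⟩ := o1
    obtain ⟨m2, hm2⟩ := o2
    obtain ⟨m3, hm3⟩ := o3
    rw [ff_ta h hzt] at h0
    obtain ⟨x1, x2, x3⟩ := mem_ct_ta.1 hzt
    have x4 : 0 ≤ 1 - fx v k z - fy v k z := by linarith
    have hpos : ¬ (0 < h v ∧ 0 < h (v + dir k) ∧ 0 < h (v + dir (nx k))) := by
      rintro ⟨p1, p2, p3⟩
      have q1 : (1 : ℝ) ≤ h v := by exact_mod_cast p1
      have q2 : (1 : ℝ) ≤ h (v + dir k) := by exact_mod_cast p2
      have q3 : (1 : ℝ) ≤ h (v + dir (nx k)) := by exact_mod_cast p3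
      nlinarith [mul_le_mul_of_nonneg_right q1 x4, mul_le_mul_of_nonneg_right q2 x1,
        mul_le_mul_of_nonneg_right q3 x2]
    have hneg : ¬ (h v < 0 ∧ h (v + dir k) < 0 ∧ h (v + dir (nx k)) < 0) := by
      rintro ⟨p1, p2, p3⟩
      have q1 : (h v : ℝ) ≤ -1 := by exact_mod_cast (by omega : h v ≤ -1)
      have q2 : (h (v + dir k) : ℝ) ≤ -1 := by exact_mod_cast (by omega : h (v + dir k) ≤ -1)
      have q3 : (h (v + dir (nx k)) : ℝ) ≤ -1 := by
        exact_mod_cast (by omega : h (v + dir (nx k)) ≤ -1)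
      nlinarith [mul_le_mul_of_nonneg_right q1 x4, mul_le_mul_of_nonneg_right q2 x1,
        mul_le_mul_of_nonneg_right q3 x2]
    have r1 := ta_rot v k
    have r2 := rot1 v k
    have r3 := rot2 v k
    have r4 := ta_rot (v + dir k) (rot k)
    have r5 := rot1 (v + dir k) (rot k)
    have r6 := rot2 (v + dir k) (rot k)
    by_cases b1 : h (v + dir k) = h (v + dir (nx k))
    · exact ⟨v, k, rfl, h v, by omega, rfl, by omega, by omega⟩
    by_cases b2 : h v = h (v + dir (nx k))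
    · refine ⟨v + dir k, rot k, r1.symm, h (v + dir k), by omega, rfl, ?_, ?_⟩
      · rw [r2]; omega
      · rw [r3]; omega
    · refine ⟨v + dir k + dir (rot k), rot (rot k), (r4.trans r1).symm, h (v + dir (nx k)),
        by omega, by rw [r2], ?_, ?_⟩
      · rw [r5, r3]; omega
      · rw [r6]; omega
  have hsum : fx v k z + fy v k z = 1 / 2 := by
    rw [ff_ta h hzt, e1, e2, e3] at h0
    rcases ha with rfl | rfl <;> push_cast at h0 <;> linarith
  obtain ⟨x1, x2, x3⟩ := mem_ct_ta.1 hzt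
  have hc : Chg h v k := by
    rcases ha with rfl | rfl
    · exact Or.inl ⟨e1, e2⟩
    · exact Or.inr ⟨e1, by rw [e2]; norm_num⟩
  have hc' : Chg h v (nx k) := by
    rcases ha with rfl | rfl
    · exact Or.inl ⟨e1, e3⟩
    · exact Or.inr ⟨e1, by rw [e3]; norm_num⟩
  rcases x1.eq_or_lt with hX | hX
  · right
    refine ⟨v, nx k, hc', ?_, Or.inr ?_⟩
    · have := ep_of_frame' hX.symm
      rw [← hX, zero_add] at hsum
      rwa [hsum] at this
    · have : tb v (nx k) = ta v k := by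
        obtain ⟨a, b⟩ := v
        fin_cases k <;> simp [ta, tb, nx]
      rw [this]
      exact htS
  rcases x2.eq_or_lt with hY | hY
  · right
    refine ⟨v, k, hc, ?_, Or.inl htS⟩
    have := ep_of_frame hY.symm
    rw [← hY, add_zero] at hsum
    rwa [hsum] at this
  · left
    exact ⟨v, k, htS, hc, mem_ot_ta.2 ⟨hX, hY, by linarith⟩⟩

end Vale.Agent.P153.R2.POLY
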